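import Mathlib.Computability.TuringMachine.Computable
import Mathlib.Algebra.Polynomial.Eval.Defs
import Mathlib.Tactic.Ring
import Mathlib.Tactic.Linarith

/-! A small structured stack language compiled to `Turing.FinTM2`, with automatic polynomial
time accounting. -/

namespace Vale.Agent.Common.LoopTM

open Turing Turing.TM2 Function

/-- Structured programs acting on finitely many stacks of bits. -/
inductive Prog (K : Type) : Type
  | push (r : K) (w : List Bool) : Prog K
  | pop (r : K) : Prog K
  | seq (P Q : Prog K) : Prog K
  | loop (r : K) (c : Option Bool → Bool) (P : Prog K) : Prog K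
  | cond (r : K) (c : Option Bool → Bool) (P Q : Prog K) : Prog K

abbrev St (K : Type) := K → List Bool

variable {K : Type} [DecidableEq K]

/-- Big step semantics in which every loop is executed at most `β` times. -/
def Run (β : ℕ) : Prog K → St K → St K → Prop
  | .push r w, s, s' => s' = update s r (w ++ s r)
  | .pop r, s, s' => s' = update s r (s r).tail
  | .seq P Q, s, s' => ∃ t, Run β P s t ∧ Run β Q t s'
  | .loop r c P, s, s' => ∃ m ≤ β, ∃ I : ℕ → St K, I m = s ∧ I 0 = s' ∧ c (s' r).head? = false ∧
      ∀ i < m, c (I (i + 1) r).head? = true ∧ Run β P (I (i + 1)) (I i)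
  | .cond r c P Q, s, s' => (c (s r).head? = true ∧ Run β P s s') ∨
      (c (s r).head? = false ∧ Run β Q s s')

@[reducible] def Lab : Prog K → Type
  | .push _ _ => Unit
  | .pop _ => Unit
  | .seq P Q => Lab P ⊕ Lab Q
  | .loop _ _ P => Option (Lab P)
  | .cond _ _ P Q => Option (Lab P ⊕ Lab Q)

@[reducible] def labFintype : (P : Prog K) → Fintype (Lab P)
  | .push _ _ => inferInstanceAs (Fintype Unit)
  | .pop _ => inferInstanceAs (Fintype Unit)
  | .seq P Q => @instFintypeSum (Lab P) (Lab Q) (labFintype P) (labFintype Q)
  | .loop _ _ P => @instFintypeOption (Lab P) (labFintype P)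
  | .cond _ _ P Q => @instFintypeOption (Lab P ⊕ Lab Q)
      (@instFintypeSum (Lab P) (Lab Q) (labFintype P) (labFintype Q))

def start : (P : Prog K) → Lab P
  | .push _ _ => ()
  | .pop _ => ()
  | .seq P _ => Sum.inl (start P)
  | .loop _ _ _ => none
  | .cond _ _ _ _ => none

abbrev Ins (K Λ : Type) := Stmt (fun _ : K => Bool) Λ Bool

def jump {Λ : Type} : Option Λ → Ins K Λ
  | some l => .load (fun _ => false) (.goto fun _ => l)
  | none => .load (fun _ => false) .halt

def pushes {Λ : Type} (r : K) : List Bool → Ins K Λ → Ins K Λ
  | [], q => q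
  | b :: w, q => pushes r w (.push r (fun _ => b) q)

def code {Λ : Type} : (P : Prog K) → (Lab P → Λ) → Option Λ → Lab P → Ins K Λ
  | .push r w, _, e, _ => pushes r w (jump e)
  | .pop r, _, e, _ => .pop r (fun v _ => v) (jump e)
  | .seq P Q, emb, _, Sum.inl x =>
      code P (fun y => emb (Sum.inl y)) (some (emb (Sum.inr (start Q)))) x
  | .seq _ Q, emb, e, Sum.inr x => code Q (fun y => emb (Sum.inr y)) e x
  | .loop r c P, emb, e, none =>
      .peek r (fun _ o => c o) (.branch id (jump (some (emb (some (start P))))) (jump e))
  | .loop _ _ P, emb, _, some x => code P (fun y => emb (some y)) (some (emb none)) x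
  | .cond r c P Q, emb, _, none =>
      .peek r (fun _ o => c o) (.branch id (jump (some (emb (some (Sum.inl (start P))))))
        (jump (some (emb (some (Sum.inr (start Q)))))))
  | .cond _ _ P _, emb, e, some (Sum.inl x) => code P (fun y => emb (some (Sum.inl y))) e x
  | .cond _ _ _ Q, emb, e, some (Sum.inr x) => code Q (fun y => emb (some (Sum.inr y))) e x

noncomputable def cost : Prog K → Polynomial ℕ
  | .push _ _ => 1
  | .pop _ => 1
  | .seq P Q => cost P + cost Q
  | .loop _ _ P => Polynomial.X * (cost P + 1) + 1
  | .cond _ _ P Q => cost P + cost Q + 1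

theorem stepAux_jump {Λ : Type} (e : Option Λ) (v : Bool) (s : St K) :
    stepAux (jump e : Ins K Λ) v s = ⟨e, false, s⟩ := by
  cases e <;> rfl

theorem stepAux_pushes {Λ : Type} (r : K) (w : List Bool) (q : Ins K Λ) (v : Bool) (s : St K) :
    stepAux (pushes r w q) v s = stepAux q v (update s r (w ++ s r)) := by
  induction w generalizing q with
  | nil => simp [pushes]
  | cons b w ih => simp [pushes, ih]

/-- `Reach M t a b`: the machine goes from `a` to `b` in at most `t` steps. -/
def Reach {Λ : Type} (M : Λ → Ins K Λ) (t : ℕ) (a b : Cfg (fun _ : K => Bool) Λ Bool) : Prop :=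
  ∃ n ≤ t, (flip bind (step M))^[n] (some a) = some b

theorem Reach.mono {Λ : Type} {M : Λ → Ins K Λ} {t t' : ℕ} {a b} (h : Reach M t a b)
    (ht : t ≤ t') : Reach M t' a b := by
  obtain ⟨n, hn, h⟩ := h
  exact ⟨n, hn.trans ht, h⟩

theorem Reach.trans {Λ : Type} {M : Λ → Ins K Λ} {t t' : ℕ} {a b c} (h : Reach M t a b)
    (h' : Reach M t' b c) : Reach M (t + t') a c := by
  obtain ⟨n, hn, h⟩ := h
  obtain ⟨n', hn', h'⟩ := h'
  refine ⟨n' + n, by omega, ?_⟩
  rw [Function.iterate_add_apply, h, h']

theorem Reach.one {Λ : Type} {M : Λ → Ins K Λ} {l : Λ} {v : Bool} {s : St K} {b}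
    (h : stepAux (M l) v s = b) : Reach M 1 ⟨some l, v, s⟩ b :=
  ⟨1, le_rfl, by subst h; rfl⟩

theorem sim {Λ : Type} (M : Λ → Ins K Λ) (β : ℕ) (P : Prog K) :
    ∀ (emb : Lab P → Λ) (e : Option Λ), (∀ x, M (emb x) = code P emb e x) →
      ∀ s s', Run β P s s' →
        Reach M ((cost P).eval β) ⟨some (emb (start P)), false, s⟩ ⟨e, false, s'⟩ := by
  induction P with
  | push r w =>
    intro emb e hM s s' h
    simp only [cost, Polynomial.eval_one]
    apply Reach.one
    rw [hM]
    simp only [code, stepAux_pushes, stepAux_jump]
    rw [show s' = _ from h]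
  | pop r =>
    intro emb e hM s s' h
    simp only [cost, Polynomial.eval_one]
    apply Reach.one
    rw [hM]
    simp only [code, stepAux, stepAux_jump]
    rw [show s' = _ from h]
  | seq P Q ihP ihQ =>
    intro emb e hM s s' h
    obtain ⟨t, h1, h2⟩ := h
    simp only [cost, Polynomial.eval_add]
    exact (ihP (fun y => emb (Sum.inl y)) _ (fun x => hM (Sum.inl x)) s t h1).trans
      (ihQ (fun y => emb (Sum.inr y)) _ (fun x => hM (Sum.inr x)) t s' h2)
  | loop r c P ih =>
    intro emb e hM s s' h
    obtain ⟨m, hm, I, h1, h2, h3, h4⟩ := h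
    have key : ∀ i ≤ m, Reach M (i * ((cost P).eval β + 1) + 1)
        ⟨some (emb none), false, I i⟩ ⟨e, false, s'⟩ := by
      intro i
      induction i with
      | zero =>
        intro _
        simp only [zero_mul, zero_add]
        apply Reach.one
        rw [hM, h2]
        simp only [code, stepAux, id, h3, Bool.cond_false, stepAux_jump]
      | succ i ihi =>
        intro hi
        obtain ⟨h5, h6⟩ := h4 i (by omega)
        have a1 : Reach M 1 ⟨some (emb none), false, I (i + 1)⟩
            ⟨some (emb (some (start P))), false, I (i + 1)⟩ := by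
          apply Reach.one
          rw [hM]
          simp only [code, stepAux, id, h5, Bool.cond_true, stepAux_jump]
        have a2 := ih (fun y => emb (some y)) _ (fun x => hM (some x)) _ _ h6
        refine ((a1.trans a2).trans (ihi (by omega))).mono (le_of_eq ?_)
        ring
    have := key m le_rfl
    rw [h1] at this
    refine this.mono ?_
    simp only [cost, Polynomial.eval_add, Polynomial.eval_mul, Polynomial.eval_X,
      Polynomial.eval_one]
    gcongr
  | cond r c P Q ihP ihQ =>
    intro emb e hM s s' h
    simp only [cost, Polynomial.eval_add, Polynomial.eval_one]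
    rcases h with ⟨h1, h2⟩ | ⟨h1, h2⟩
    · have a1 : Reach M 1 ⟨some (emb none), false, s⟩
          ⟨some (emb (some (Sum.inl (start P)))), false, s⟩ := by
        apply Reach.one
        rw [hM]
        simp only [code, stepAux, id, h1, Bool.cond_true, stepAux_jump]
      have a2 := ihP (fun y => emb (some (Sum.inl y))) _ (fun x => hM (some (Sum.inl x))) _ _ h2
      exact (a1.trans a2).mono (by omega)
    · have a1 : Reach M 1 ⟨some (emb none), false, s⟩
          ⟨some (emb (some (Sum.inr (start Q)))), false, s⟩ := by
        apply Reach.one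
        rw [hM]
        simp only [code, stepAux, id, h1, Bool.cond_false, stepAux_jump]
      have a2 := ihQ (fun y => emb (some (Sum.inr y))) _ (fun x => hM (some (Sum.inr x))) _ _ h2
      exact (a1.trans a2).mono (by omega)

/-- The bundled machine of a program. -/
def machine [Fintype K] (k₀ k₁ : K) (P : Prog K) : FinTM2 where
  K := K
  k₀ := k₀
  k₁ := k₁
  Γ _ := Bool
  Λ := Lab P
  main := start P
  ΛFin := labFintype P
  σ := Bool
  initialState := false
  m := code P id none

/-- A program whose loops are polynomially bounded gives a polynomial time machine. -/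
theorem polyTime [Fintype K] (k₀ k₁ : K) (P : Prog K) {α γ : Type} (ea : α → List Bool)
    (eb : γ → List Bool) (f : α → γ) (b : Polynomial ℕ)
    (h : ∀ a, Run (b.eval (ea a).length) P (update (fun _ => []) k₀ (ea a))
      (update (fun _ => []) k₁ (eb (f a)))) :
    ∃ tm : TM2ComputableInPolyTime ea eb f, ∀ k, Finite (tm.tm.Γ k) := by
  have h1 : ∀ l : List Bool, initList (machine k₀ k₁ P) l =
      (⟨some (start P), false, update (fun _ => []) k₀ l⟩ :
        Cfg (fun _ : K => Bool) (Lab P) Bool) := by
    intro l
    have : (initList (machine k₀ k₁ P) l).stk = (update (fun _ => []) k₀ l : St K) := by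
      funext (k : K)
      by_cases hk : k = k₀
      · rw [hk, update_self]
        exact dif_pos rfl
      · rw [update_of_ne hk]
        exact dif_neg hk
    rw [← this]
    rfl
  have h2 : ∀ l : List Bool, haltList (machine k₀ k₁ P) l =
      (⟨none, false, update (fun _ => []) k₁ l⟩ :
        Cfg (fun _ : K => Bool) (Lab P) Bool) := by
    intro l
    have : (haltList (machine k₀ k₁ P) l).stk = (update (fun _ => []) k₁ l : St K) := by
      funext (k : K)
      by_cases hk : k = k₁
      · rw [hk, update_self]
        exact dif_pos rfl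
      · rw [update_of_ne hk]
        exact dif_neg hk
    rw [← this]
    rfl
  have h3 := fun a => sim (code P id none) (b.eval (ea a).length) P id none (fun _ => rfl) _ _ (h a)
  refine ⟨{ tm := machine k₀ k₁ P
            inputAlphabet := Equiv.refl Bool
            outputAlphabet := Equiv.refl Bool
            time := (cost P).comp b
            outputsFun := fun a =>
              { steps := (h3 a).choose
                evals_in_steps := ?_
                steps_le_m := ?_ } }, fun _ => (inferInstance : Finite Bool)⟩
  · have := (h3 a).choose_spec.2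
    simp only [Equiv.invFun_as_coe, Equiv.refl_symm, Option.map_some]
    erw [List.map_id, List.map_id, h1, h2]
    exact this
  · rw [Polynomial.eval_comp]
    exact (h3 a).choose_spec.1

end Vale.Agent.Common.LoopTM
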