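import Vale.Agent.Common.LoopTM

/-! Frame rules and unary counter routines for the stack language. -/

namespace Vale.Agent.Common.LoopTM

open Function

set_option linter.unusedSectionVars false

variable {K : Type} [DecidableEq K]

/-- `free P r`: the program does not mention the stack `r`. -/
def free : Prog K → K → Prop
  | .push a _, r => a ≠ r
  | .pop a, r => a ≠ r
  | .seq P Q, r => free P r ∧ free Q r
  | .loop a _ P, r => a ≠ r ∧ free P r
  | .cond a _ P Q, r => a ≠ r ∧ free P r ∧ free Q r

theorem Run.same {β : ℕ} {P : Prog K} {r : K} (hr : free P r) :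
    ∀ {s s' : St K}, Run β P s s' → s' r = s r := by
  induction P with
  | push a w =>
    intro s s' h
    rw [show s' = _ from h, update_of_ne (Ne.symm hr)]
  | pop a =>
    intro s s' h
    rw [show s' = _ from h, update_of_ne (Ne.symm hr)]
  | seq P Q ihP ihQ =>
    rintro s s' ⟨t, h1, h2⟩
    rw [ihQ hr.2 h2, ihP hr.1 h1]
  | loop a c P ih =>
    rintro s s' ⟨m, hm, I, h1, h2, h3, h4⟩
    have : ∀ i ≤ m, I 0 r = I i r := by
      intro i
      induction i with
      | zero => intro _; rfl
      | succ i ihi =>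
        intro hi
        rw [ihi (by omega), ih hr.2 (h4 i (by omega)).2]
    rw [← h1, ← h2, this m le_rfl]
  | cond a c P Q ihP ihQ =>
    rintro s s' (⟨_, h⟩ | ⟨_, h⟩)
    · exact ihP hr.2.1 h
    · exact ihQ hr.2.2 h

theorem Run.frame {β : ℕ} {P : Prog K} {r : K} (hr : free P r) (v : List Bool) :
    ∀ {s s' : St K}, Run β P s s' → Run β P (update s r v) (update s' r v) := by
  induction P with
  | push a w =>
    intro s s' h
    rw [show s' = _ from h]
    show _ = _
    rw [update_of_ne hr, update_comm hr]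
  | pop a =>
    intro s s' h
    rw [show s' = _ from h]
    show _ = _
    rw [update_of_ne hr, update_comm hr]
  | seq P Q ihP ihQ =>
    rintro s s' ⟨t, h1, h2⟩
    exact ⟨_, ihP hr.1 h1, ihQ hr.2 h2⟩
  | loop a c P ih =>
    rintro s s' ⟨m, hm, I, h1, h2, h3, h4⟩
    refine ⟨m, hm, fun i => update (I i) r v, by simp only [h1], by simp only [h2], ?_, ?_⟩
    · rw [update_of_ne hr.1, h3]
    · intro i hi
      refine ⟨?_, ih hr.2 (h4 i hi).2⟩
      simp only [update_of_ne hr.1, (h4 i hi).1]
  | cond a c P Q ihP ihQ =>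
    rintro s s' (⟨h1, h⟩ | ⟨h1, h⟩)
    · exact Or.inl ⟨by rw [update_of_ne hr.1, h1], ihP hr.2.1 h⟩
    · exact Or.inr ⟨by rw [update_of_ne hr.1, h1], ihQ hr.2.2 h⟩

theorem Run.seq {β : ℕ} {P Q : Prog K} {s t s' : St K} (h1 : Run β P s t) (h2 : Run β Q t s') :
    Run β (.seq P Q) s s' := ⟨t, h1, h2⟩

theorem Run.push {β : ℕ} (r : K) (w : List Bool) (s : St K) :
    Run β (.push r w) s (update s r (w ++ s r)) := rfl

theorem Run.pop {β : ℕ} (r : K) (s : St K) :
    Run β (.pop r) s (update s r (s r).tail) := rfl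

theorem Run.of_eq {β : ℕ} {P : Prog K} {s s' s'' : St K} (h : Run β P s s') (e : s' = s'') :
    Run β P s s'' := e ▸ h

theorem Run.of_eq' {β : ℕ} {P : Prog K} {s t s' : St K} (h : Run β P s s') (e : t = s) :
    Run β P t s' := e ▸ h

/-- Unary numerals. -/
def un (m : ℕ) : List Bool := List.replicate m true

@[simp] theorem un_zero : un 0 = [] := rfl
theorem un_succ (m : ℕ) : un (m + 1) = true :: un m := rfl
theorem un_tail (m : ℕ) : (un m).tail = un (m - 1) := by
  cases m <;> rfl
theorem un_add (a b : ℕ) : un (a + b) = un a ++ un b := List.replicate_add _ _ _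

def isT (o : Option Bool) : Bool := o == some true

theorem isT_un (m : ℕ) : isT (un m).head? = decide (m ≠ 0) := by
  cases m <;> rfl

/-- Count the stack `r` down, running `P` after each decrement. -/
def down (r : K) (P : Prog K) : Prog K := .loop r isT (.seq (.pop r) P)

theorem Run.down' {β : ℕ} {r : K} {P : Prog K} (J : ℕ → St K) (w : List Bool) (m : ℕ)
    (hm : m ≤ β) (hw : isT w.head? = false)
    (h : ∀ i < m, Run β P (update (J (i + 1)) r (un i ++ w)) (update (J i) r (un i ++ w))) :
    Run β (down r P) (update (J m) r (un m ++ w)) (update (J 0) r w) := by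
  refine ⟨m, hm, fun i => update (J i) r (un i ++ w), rfl, by simp, by simpa using hw, ?_⟩
  intro i hi
  refine ⟨by simp [un_succ, isT], ⟨_, Run.pop _ _, ?_⟩⟩
  simpa [un_succ] using h i hi

theorem Run.down {β : ℕ} {r : K} {P : Prog K} (J : ℕ → St K) (m : ℕ) (hm : m ≤ β)
    (h : ∀ i < m, Run β P (update (J (i + 1)) r (un i)) (update (J i) r (un i))) :
    Run β (down r P) (update (J m) r (un m)) (update (J 0) r []) := by
  have := Run.down' (β := β) (r := r) (P := P) J [] m hm rfl (by simpa using h)
  simpa using this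

/-- Empty a counter. -/
def clear (r : K) : Prog K := down r (.push r [])

theorem Run.clear {β : ℕ} {r : K} {s : St K} {x : ℕ} (hx : x ≤ β) (hs : s r = un x) :
    Run β (clear r) s (update s r []) := by
  have := Run.down (β := β) (r := r) (P := .push r []) (fun _ => s) x hx
    (fun i _ => (Run.push _ _ _).of_eq (by simp))
  rwa [← hs, update_eq_self] at this

/-- Repeat `P` as many times as the counter `a` says, preserving `a` (scratch counter `t`). -/
def rep (a t : K) (P : Prog K) : Prog K :=
  .seq (down a (.seq (.push t [true]) P)) (down t (.push a [true]))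

theorem Run.rep {β : ℕ} {a t : K} {P : Prog K} (hat : a ≠ t) (ha : free P a) (ht : free P t)
    (I : ℕ → St K) {x : ℕ} (hx : x ≤ β) (h1 : I 0 a = un x) (h2 : I 0 t = [])
    (h : ∀ i < x, Run β P (I i) (I (i + 1))) : Run β (rep a t P) (I 0) (I x) := by
  have e1 : ∀ i ≤ x, I i a = un x ∧ I i t = [] := by
    intro i
    induction i with
    | zero => intro _; exact ⟨h1, h2⟩
    | succ i ih =>
      intro hi
      rw [(h i (by omega)).same ha, (h i (by omega)).same ht]
      exact ih (by omega)
  have p1 := Run.down (β := β) (r := a) (P := .seq (.push t [true]) P)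
    (fun i => update (I (x - i)) t (un (x - i))) x hx (by
      intro i hi
      refine Run.seq (Run.push _ _ _) ?_
      have := ((h (x - (i + 1)) (by omega)).frame ht (un (x - i))).frame ha (un i)
      rw [show x - (i + 1) + 1 = x - i by omega] at this
      refine this.of_eq' ?_
      rw [update_of_ne hat.symm, update_self, update_comm hat, update_idem,
        show x - i = x - (i + 1) + 1 by omega]
      rfl)
  have p2 := Run.down (β := β) (r := t) (P := .push a [true])
    (fun i => update (I x) a (un (x - i))) x hx (by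
      intro i hi
      refine (Run.push _ _ _).of_eq ?_
      rw [update_of_ne hat, update_self, update_comm hat.symm, update_idem,
        show x - i = x - (i + 1) + 1 by omega]
      rfl)
  simp only [Nat.sub_self, Nat.sub_zero, un_zero] at p1 p2
  refine Run.seq (p1.of_eq' ?_) ((p2.of_eq' ?_).of_eq ?_)
  · rw [← h2, update_eq_self, ← h1, update_eq_self]
  · rw [update_comm hat]
  · rw [← (e1 x le_rfl).1, update_eq_self, ← (e1 x le_rfl).2, update_eq_self]

theorem free_down {a r : K} {P : Prog K} : free (down a P) r ↔ a ≠ r ∧ free P r := by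
  simp [down, free]

theorem free_clear {a r : K} : free (clear a) r ↔ a ≠ r := by
  simp [clear, down, free]

theorem free_rep {a t r : K} {P : Prog K} : free (rep a t P) r ↔ a ≠ r ∧ t ≠ r ∧ free P r := by
  simp only [rep, down, free]
  tauto

/-- `b += a`. -/
def addTo (a b t : K) : Prog K := rep a t (.push b [true])

theorem free_addTo {a b t r : K} : free (addTo a b t) r ↔ a ≠ r ∧ t ≠ r ∧ b ≠ r := by
  simp [addTo, free_rep, free]

theorem Run.addTo {β : ℕ} {a b t : K} (hat : a ≠ t) (hab : a ≠ b) (hbt : b ≠ t) {s : St K}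
    {x : ℕ} (hx : x ≤ β) (h1 : s a = un x) (h2 : s t = []) :
    Run β (addTo a b t) s (update s b (un x ++ s b)) := by
  have := Run.rep (β := β) (P := .push b [true]) hat hab.symm hbt
    (fun i => update s b (un i ++ s b)) hx (by simp [hab, h1]) (by simp [hbt.symm, h2])
    (fun i _ => (Run.push _ _ _).of_eq (by simp [un_succ]))
  simpa [LoopTM.addTo] using this

/-- `b -= a` (truncated). -/
def subFrom (a b t : K) : Prog K := rep a t (.pop b)

theorem free_subFrom {a b t r : K} : free (subFrom a b t) r ↔ a ≠ r ∧ t ≠ r ∧ b ≠ r := by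
  simp [subFrom, free_rep, free]

theorem Run.subFrom {β : ℕ} {a b t : K} (hat : a ≠ t) (hab : a ≠ b) (hbt : b ≠ t) {s : St K}
    {x y : ℕ} (hx : x ≤ β) (h1 : s a = un x) (h2 : s t = []) (h3 : s b = un y) :
    Run β (subFrom a b t) s (update s b (un (y - x))) := by
  have := Run.rep (β := β) (P := .pop b) hat hab.symm hbt
    (fun i => update s b (un (y - i))) hx (by simp [hab, h1]) (by simp [hbt.symm, h2])
    (fun i _ => (Run.pop _ _).of_eq (by simp [un_tail, Nat.sub_sub]))
  simpa [← h3, LoopTM.subFrom] using this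

/-- `c += a * b`. -/
def mulTo (a b c t t' : K) : Prog K := rep a t (addTo b c t')

theorem free_mulTo {a b c t t' r : K} :
    free (mulTo a b c t t') r ↔ a ≠ r ∧ t ≠ r ∧ b ≠ r ∧ t' ≠ r ∧ c ≠ r := by
  simp [mulTo, free_rep, free_addTo]

theorem Run.mulTo {β : ℕ} {a b c t t' : K} (hat : a ≠ t) (hba : b ≠ a) (hta : t' ≠ a)
    (hca : c ≠ a) (hbt : b ≠ t) (htt : t' ≠ t) (hct : c ≠ t) (hbt' : b ≠ t') (hbc : b ≠ c)
    (hct' : c ≠ t') {s : St K} {x y : ℕ} (hx : x ≤ β) (hy : y ≤ β) (h1 : s a = un x)
    (h2 : s t = []) (h3 : s b = un y) (h4 : s t' = []) :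
    Run β (mulTo a b c t t') s (update s c (un (x * y) ++ s c)) := by
  have := Run.rep (β := β) (P := LoopTM.addTo b c t') hat (free_addTo.2 ⟨hba, hta, hca⟩)
    (free_addTo.2 ⟨hbt, htt, hct⟩)
    (fun i => update s c (un (i * y) ++ s c)) hx (by simp [hca.symm, h1])
    (by simp [hct.symm, h2])
    (fun i _ => (Run.addTo hbt' hbc hct' hy (by simp [hbc, h3]) (by simp [hct'.symm, h4])).of_eq
      (by simp [Nat.succ_mul, un_add, Nat.add_comm (i * y) y]))
  simpa [LoopTM.mulTo] using this

/-- `Emit β o P s w`: the only effect of `P` on `s` is to prepend `w` to the stack `o`. -/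
def Emit (β : ℕ) (o : K) (P : Prog K) (s : St K) (w : List Bool) : Prop :=
  Run β P s (update s o (w ++ s o))

/-- Run `P` with the counter `c` taking the values `a - 1, ..., 0`. -/
def forD (c a t : K) (P : Prog K) : Prog K := .seq (addTo a c t) (down c P)

theorem Emit.forD {β : ℕ} {o c a t : K} {P : Prog K} (hat : a ≠ t) (hac : a ≠ c) (hct : c ≠ t)
    (hco : c ≠ o) {s : St K} {m : ℕ} (hm : m ≤ β) (h1 : s a = un m) (h2 : s t = [])
    (h3 : s c = []) (F : ℕ → List Bool)
    (h : ∀ i < m, ∀ v, Emit β o P (update (update s o v) c (un i)) (F i)) :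
    Emit β o (forD c a t P) s ((List.range m).flatMap F) := by
  refine Run.seq (Run.addTo hat hac hct hm h1 h2) ?_
  have := Run.down (β := β) (r := c) (P := P)
    (fun i => update s o (((List.range m).drop i).flatMap F ++ s o)) m hm (by
      intro i hi
      refine (h i hi _).of_eq ?_
      rw [update_of_ne hco.symm, update_self, update_comm hco, update_idem,
        List.drop_eq_getElem_cons (l := List.range m) (i := i) (by simpa using hi)]
      simp)
  refine (this.of_eq' ?_).of_eq ?_
  · rw [List.drop_of_length_le (by simp)]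
    simp [h3]
  · rw [update_comm hco.symm, ← h3, update_eq_self]
    simp

theorem Emit.seq {β : ℕ} {o : K} {P Q : Prog K} {s : St K} {w w' : List Bool}
    (h1 : Emit β o P s w) (h2 : Emit β o Q (update s o (w ++ s o)) w') :
    Emit β o (.seq P Q) s (w' ++ w) :=
  Run.seq h1 (Run.of_eq h2 (by simp))

end Vale.Agent.Common.LoopTM
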