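import Mathlib

/-! The Prekopa-Leindler inequality at the midpoint, on `EuclideanSpace ℝ (Fin d)`. -/

namespace Vale.Agent.Common

open MeasureTheory Set
open scoped ENNReal

lemma bm_one_compact {A B C : Set ℝ} (hA : IsCompact A) (hB : IsCompact B)
    (hAn : A.Nonempty) (hBn : B.Nonempty)
    (h : ∀ x ∈ A, ∀ y ∈ B, (1 / 2 : ℝ) • (x + y) ∈ C) :
    volume A + volume B ≤ 2 * volume C := by
  obtain ⟨a, ha, hamax⟩ := hA.exists_isGreatest hAn
  obtain ⟨b, hb, hbmin⟩ := hB.exists_isLeast hBn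
  have hC : volume ((fun z : ℝ => (1 / 2 : ℝ) • z) ⁻¹' C) = 2 * volume C := by
    rw [Measure.addHaar_preimage_smul volume (by norm_num)]
    congr 1
    simp
  rw [← hC]
  have h1 : volume ((fun x => x + (-b)) ⁻¹' A) = volume A := measure_preimage_add_right _ _ _
  have h2 : volume ((fun y => y + (-a)) ⁻¹' (B \ {b})) = volume B := by
    rw [measure_preimage_add_right, measure_sdiff_null (measure_singleton b)]
  rw [← h1, ← h2, ← measure_union]
  · apply measure_mono
    rintro z (hz | hz)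
    · have := h _ hz b hb
      simpa using this
    · have := h a ha _ hz.1
      simp only [mem_preimage]
      convert this using 2
      ring
  · rw [Set.disjoint_left]
    intro z hz1 hz2
    have e1 := hamax hz1
    have e2 := hbmin hz2.1
    apply hz2.2
    simp only [mem_singleton_iff]
    simp only at e1 e2
    linarith
  · exact (measurable_add_const _) (hB.measurableSet.diff (measurableSet_singleton b))

lemma bm_one {A B C : Set ℝ} (hA : MeasurableSet A) (hB : MeasurableSet B)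
    (hAn : A.Nonempty) (hBn : B.Nonempty)
    (h : ∀ x ∈ A, ∀ y ∈ B, (1 / 2 : ℝ) • (x + y) ∈ C) :
    volume A + volume B ≤ 2 * volume C := by
  obtain ⟨a, ha⟩ := hAn
  obtain ⟨b, hb⟩ := hBn
  rw [hA.measure_eq_iSup_isCompact, hB.measure_eq_iSup_isCompact]
  simp only [iSup_and' ]
  refine ENNReal.biSup_add_biSup_le' ⟨∅, by simp⟩ ⟨∅, by simp⟩ ?_
  rintro A' ⟨hA1, hA2⟩ B' ⟨hB1, hB2⟩
  refine le_trans (add_le_add (measure_mono (subset_insert a A'))
    (measure_mono (subset_insert b B'))) ?_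
  refine bm_one_compact (hA2.insert a) (hB2.insert b) (insert_nonempty _ _)
    (insert_nonempty _ _) ?_
  intro x hx y hy
  exact h x (insert_subset ha hA1 hx) y (insert_subset hb hB1 hy)

lemma pl_one_norm {f g h : ℝ → ℝ} (hf : Measurable f) (hg : Measurable g) (hh : Measurable h)
    (f0 : ∀ x, 0 ≤ f x) (g0 : ∀ x, 0 ≤ g x) (h0 : ∀ x, 0 ≤ h x)
    (f1 : ∀ x, f x ≤ 1) (g1 : ∀ x, g x ≤ 1)
    (fs : ∀ t < 1, ∃ x, t < f x) (gs : ∀ t < 1, ∃ x, t < g x)
    (H : ∀ x y, f x * g y ≤ h ((1 / 2 : ℝ) • (x + y)) ^ 2) :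
    (∫⁻ x, ENNReal.ofReal (f x)) + ∫⁻ x, ENNReal.ofReal (g x)
      ≤ 2 * ∫⁻ x, ENNReal.ofReal (h x) := by
  rw [lintegral_eq_lintegral_meas_lt _ (Filter.Eventually.of_forall f0) hf.aemeasurable,
    lintegral_eq_lintegral_meas_lt _ (Filter.Eventually.of_forall g0) hg.aemeasurable,
    lintegral_eq_lintegral_meas_lt _ (Filter.Eventually.of_forall h0) hh.aemeasurable]
  have mf : Measurable fun t : ℝ => volume {a : ℝ | t < f a} :=
    Antitone.measurable fun s t hst => measure_mono fun a ha => lt_of_le_of_lt hst ha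
  have mh : Measurable fun t : ℝ => volume {a : ℝ | t < h a} :=
    Antitone.measurable fun s t hst => measure_mono fun a ha => lt_of_le_of_lt hst ha
  rw [← lintegral_add_left mf, ← lintegral_const_mul _ mh]
  refine setLIntegral_mono' measurableSet_Ioi fun t ht => ?_
  have ht0 : 0 < t := ht
  by_cases ht1 : t < 1
  · refine bm_one (measurableSet_lt measurable_const hf) (measurableSet_lt measurable_const hg)
      (fs t ht1) (gs t ht1) ?_
    intro x hx y hy
    have hx' : t < f x := hx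
    have hy' : t < g y := hy
    have h1 : t ^ 2 < h ((1 / 2 : ℝ) • (x + y)) ^ 2 := by
      refine lt_of_lt_of_le ?_ (H x y)
      nlinarith
    exact lt_of_pow_lt_pow_left₀ 2 (h0 _) h1
  · have e1 : {a : ℝ | t < f a} = ∅ := by
      ext a; simp only [Set.mem_ofPred_eq, mem_empty_iff_false, iff_false, not_lt]
      linarith [f1 a]
    have e2 : {a : ℝ | t < g a} = ∅ := by
      ext a; simp only [Set.mem_ofPred_eq, mem_empty_iff_false, iff_false, not_lt]
      linarith [g1 a]
    simp [e1, e2]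

lemma ennreal_amgm {a b c : ℝ≥0∞} (h : a + b ≤ 2 * c) : a * b ≤ c ^ 2 := by
  rcases eq_or_ne c ⊤ with rfl | hc
  · simp
  have h2 : 2 * c ≠ ⊤ := ENNReal.mul_ne_top (by simp) hc
  have ha : a ≠ ⊤ := ne_top_of_le_ne_top h2 (le_trans le_self_add h)
  have hb : b ≠ ⊤ := ne_top_of_le_ne_top h2 (le_trans le_add_self h)
  lift a to NNReal using ha
  lift b to NNReal using hb
  lift c to NNReal using hc
  have h' : (a : ℝ) + b ≤ 2 * c := by exact_mod_cast h
  have : (a : ℝ) * b ≤ c ^ 2 := by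
    have ha := a.2
    have hb := b.2
    nlinarith [sq_nonneg ((a : ℝ) - b), NNReal.coe_nonneg a, NNReal.coe_nonneg b]
  exact_mod_cast this

lemma pl_one_real {f g h : ℝ → ℝ} (hf : Measurable f) (hg : Measurable g) (hh : Measurable h)
    (f0 : ∀ x, 0 ≤ f x) (g0 : ∀ x, 0 ≤ g x) (h0 : ∀ x, 0 ≤ h x)
    (f1 : BddAbove (range f)) (g1 : BddAbove (range g))
    (H : ∀ x y, f x * g y ≤ h ((1 / 2 : ℝ) • (x + y)) ^ 2) :
    (∫⁻ x, ENNReal.ofReal (f x)) * ∫⁻ x, ENNReal.ofReal (g x)
      ≤ (∫⁻ x, ENNReal.ofReal (h x)) ^ 2 := by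
  set a := ⨆ x, f x with ha
  set b := ⨆ x, g x with hb
  have fa : ∀ x, f x ≤ a := fun x => le_ciSup f1 x
  have gb : ∀ x, g x ≤ b := fun x => le_ciSup g1 x
  rcases (le_trans (f0 0) (fa 0)).eq_or_lt with a0 | a0
  · have : ∀ x, f x = 0 := fun x => le_antisymm (a0 ▸ fa x) (f0 x)
    simp [this]
  rcases (le_trans (g0 0) (gb 0)).eq_or_lt with b0 | b0
  · have : ∀ x, g x = 0 := fun x => le_antisymm (b0 ▸ gb x) (g0 x)
    simp [this]
  set s := √(a * b) with hs
  have s0 : 0 < s := Real.sqrt_pos.2 (mul_pos a0 b0)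
  have ss : s ^ 2 = a * b := Real.sq_sqrt (mul_pos a0 b0).le
  have key := pl_one_norm (f := fun x => f x / a) (g := fun x => g x / b) (h := fun x => h x / s)
    (hf.div_const a) (hg.div_const b) (hh.div_const s)
    (fun x => div_nonneg (f0 x) a0.le) (fun x => div_nonneg (g0 x) b0.le)
    (fun x => div_nonneg (h0 x) s0.le)
    (fun x => (div_le_one a0).2 (fa x)) (fun x => (div_le_one b0).2 (gb x))
    (fun t ht => by
      have : t * a < ⨆ x, f x := by rw [← ha]; nlinarith
      obtain ⟨x, hx⟩ := exists_lt_of_lt_ciSup this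
      exact ⟨x, (lt_div_iff₀ a0).2 hx⟩)
    (fun t ht => by
      have : t * b < ⨆ x, g x := by rw [← hb]; nlinarith
      obtain ⟨x, hx⟩ := exists_lt_of_lt_ciSup this
      exact ⟨x, (lt_div_iff₀ b0).2 hx⟩)
    (fun x y => by
      rw [div_pow, ss, div_mul_div_comm]
      exact div_le_div_of_nonneg_right (H x y) (mul_pos a0 b0).le)
  have key2 := ennreal_amgm key
  have e : ∀ (k : ℝ → ℝ) (c : ℝ), Measurable k → 0 < c →
      ∫⁻ x, ENNReal.ofReal (k x) = ENNReal.ofReal c * ∫⁻ x, ENNReal.ofReal (k x / c) := by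
    intro k c hk hc
    rw [← lintegral_const_mul _ (hk.div_const c).ennreal_ofReal]
    refine lintegral_congr fun x => ?_
    rw [← ENNReal.ofReal_mul hc.le, mul_div_cancel₀ _ hc.ne']
  rw [e f a hf a0, e g b hg b0, e h s hh s0, mul_pow, ← ENNReal.ofReal_pow s0.le, ss,
    ENNReal.ofReal_mul a0.le, mul_mul_mul_comm]
  exact mul_le_mul_right key2 _

/-- The midpoint Prekopa-Leindler property of a measure on a real vector space. -/
def PL {α : Type*} [MeasurableSpace α] [Add α] [SMul ℝ α] (μ : Measure α) : Prop :=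
  ∀ f g h : α → ℝ≥0∞, Measurable f → Measurable g → Measurable h →
    (∀ x y, f x * g y ≤ h ((1 / 2 : ℝ) • (x + y)) ^ 2) →
    (∫⁻ x, f x ∂μ) * ∫⁻ x, g x ∂μ ≤ (∫⁻ x, h x ∂μ) ^ 2

lemma pl_real : PL (volume : Measure ℝ) := by
  intro f g h hf hg hh H
  have trunc : ∀ k : ℝ → ℝ≥0∞, Measurable k →
      ∫⁻ x, k x = ⨆ n : ℕ, ∫⁻ x, min (k x) n := by
    intro k hk
    rw [← lintegral_iSup (fun n => hk.min measurable_const)
      (fun n m hnm x => min_le_min le_rfl (by exact_mod_cast hnm))]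
    refine lintegral_congr fun x => ?_
    refine le_antisymm ?_ (iSup_le fun n => min_le_left _ _)
    rcases eq_or_ne (k x) ⊤ with h | h
    · rw [h]
      simp [ENNReal.iSup_natCast]
    · obtain ⟨n, hn⟩ := ENNReal.exists_nat_gt h
      exact le_iSup_of_le n (le_min le_rfl hn.le)
  rw [trunc f hf, trunc g hg, ENNReal.iSup_mul]
  refine iSup_le fun n => ?_
  rw [ENNReal.mul_iSup]
  refine iSup_le fun m => ?_
  have fin : ∀ (a : ℝ≥0∞) (k : ℕ), min a k ≠ ⊤ := fun a k =>
    ne_top_of_le_ne_top (ENNReal.natCast_ne_top k) (min_le_right _ _)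
  have key := pl_one_real (f := fun x => (min (f x) n).toReal)
    (g := fun x => (min (g x) m).toReal) (h := fun x => (min (h x) ((n + m : ℕ) : ℝ≥0∞)).toReal)
    (hf.min measurable_const).ennreal_toReal (hg.min measurable_const).ennreal_toReal
    (hh.min measurable_const).ennreal_toReal
    (fun x => ENNReal.toReal_nonneg) (fun x => ENNReal.toReal_nonneg)
    (fun x => ENNReal.toReal_nonneg)
    ⟨n, by
      rintro _ ⟨x, rfl⟩
      exact ENNReal.toReal_le_of_le_ofReal (Nat.cast_nonneg n) (by simp)⟩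
    ⟨m, by
      rintro _ ⟨x, rfl⟩
      exact ENNReal.toReal_le_of_le_ofReal (Nat.cast_nonneg m) (by simp)⟩
    (fun x y => by
      rw [← ENNReal.toReal_mul, ← ENNReal.toReal_pow]
      refine ENNReal.toReal_mono (ENNReal.pow_ne_top (fin _ _)) ?_
      rcases le_total (h ((1 / 2 : ℝ) • (x + y))) ((n + m : ℕ) : ℝ≥0∞) with c | c
      · rw [min_eq_left c]
        exact le_trans (mul_le_mul' (min_le_left _ _) (min_le_left _ _)) (H x y)
      · rw [min_eq_right c, sq]
        refine mul_le_mul' (le_trans (min_le_right _ _) ?_) (le_trans (min_le_right _ _) ?_)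
        · exact_mod_cast Nat.le_add_right n m
        · exact_mod_cast Nat.le_add_left m n)
  simp only [ENNReal.ofReal_toReal (fin _ _)] at key
  refine le_trans key (pow_le_pow_left' (lintegral_mono fun x => min_le_left _ _) 2)

lemma PL.prod {α β : Type*} [MeasurableSpace α] [Add α] [SMul ℝ α]
    [MeasurableSpace β] [Add β] [SMul ℝ β] {μ : Measure α} {ν : Measure β} [SFinite ν]
    (h1 : PL μ) (h2 : PL ν) : PL (μ.prod ν) := by
  intro f g h hf hg hh H
  rw [lintegral_prod _ hf.aemeasurable, lintegral_prod _ hg.aemeasurable,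
    lintegral_prod _ hh.aemeasurable]
  refine h1 _ _ _ hf.lintegral_prod_right' hg.lintegral_prod_right' hh.lintegral_prod_right' ?_
  intro x y
  refine h2 _ _ _ (hf.comp measurable_prodMk_left) (hg.comp measurable_prodMk_left)
    (hh.comp measurable_prodMk_left) ?_
  intro u v
  exact H (x, u) (y, v)

lemma PL.of_equiv {α β : Type*} [MeasurableSpace α] [Add α] [SMul ℝ α]
    [MeasurableSpace β] [Add β] [SMul ℝ β] {μ : Measure α} {ν : Measure β}
    (e : α → β) (he : MeasurePreserving e μ ν)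
    (hlin : ∀ x y, e ((1 / 2 : ℝ) • (x + y)) = (1 / 2 : ℝ) • (e x + e y))
    (h1 : PL μ) : PL ν := by
  intro f g h hf hg hh H
  rw [← he.lintegral_comp hf, ← he.lintegral_comp hg, ← he.lintegral_comp hh]
  refine h1 _ _ _ (hf.comp he.measurable) (hg.comp he.measurable) (hh.comp he.measurable) ?_
  intro x y
  rw [hlin]
  exact H _ _

lemma pl_pi (n : ℕ) : PL (volume : Measure (Fin n → ℝ)) := by
  induction n with
  | zero =>
    intro f g h hf hg hh H
    have e : (volume : Measure (Fin 0 → ℝ)) = Measure.dirac 0 := Measure.volume_pi_eq_dirac 0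
    rw [e, lintegral_dirac, lintegral_dirac, lintegral_dirac]
    simpa using H 0 0
  | succ n ih =>
    refine PL.of_equiv _
      (volume_preserving_piFinSuccAbove (fun _ : Fin (n + 1) => ℝ) 0).symm ?_ (pl_real.prod ih)
    intro x y
    ext i
    refine Fin.cases ?_ (fun j => ?_) i <;> simp [MeasurableEquiv.piFinSuccAbove, mul_add]

theorem pl_euclidean (d : ℕ) : PL (volume : Measure (EuclideanSpace ℝ (Fin d))) :=
  PL.of_equiv _ (PiLp.volume_preserving_toLp (Fin d)) (fun _ _ => rfl) (pl_pi d)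

end Vale.Agent.Common
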