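import Vale.Agent.Common.TreeRec

/-! Division, sums and powers in the classes `TC`. -/

namespace Vale.Agent.Common.TreeTM

variable {α β : Type} [Enc α] [Enc β] {e : ℕ}

def divStep (d : ℕ) (s : ℕ × ℕ) (c : Bool) : ℕ × ℕ :=
  bif nlt (Nat.bit c s.2) d then (Nat.bit false s.1, Nat.bit c s.2)
  else (Nat.bit true s.1, Nat.bit c s.2 - d)

theorem div_fold {d : ℕ} (hd : 0 < d) (l : List Bool) : ∀ s : ℕ,
    l.foldl (divStep d) (s / d, s % d) =
      (l.foldl (fun acc c => Nat.bit c acc) s / d, l.foldl (fun acc c => Nat.bit c acc) s % d) := by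
  induction l with
  | nil => intro s; rfl
  | cons c l ih =>
    intro s
    rw [List.foldl_cons, List.foldl_cons, ← ih]
    congr 1
    have h1 := Nat.div_add_mod s d
    have h2 := Nat.mod_lt s hd
    have h3 : c.toNat ≤ 1 := by cases c <;> simp
    unfold divStep nlt
    simp only [Nat.bit_val]
    by_cases h : 2 * (s % d) + c.toNat < d
    · have := (Nat.div_mod_unique (a := 2 * s + c.toNat) (c := 2 * (s % d) + c.toNat)
        (d := 2 * (s / d)) hd).2 ⟨by rw [Nat.mul_left_comm]; omega, h⟩
      simp [h, this.1, this.2]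
    · have := (Nat.div_mod_unique (a := 2 * s + c.toNat) (c := 2 * (s % d) + c.toNat - d)
        (d := 2 * (s / d) + 1) hd).2 ⟨by rw [Nat.mul_add, Nat.mul_left_comm]; omega, by omega⟩
      simp [h, this.1, this.2]

@[fun_prop] theorem TC.div {f g : α → ℕ} (hf : TC e f) (hg : TC e g) :
    TC e fun a => f a / g a := by
  have hl : TC e fun a => (f a).bits.reverse := by fun_prop
  have h := TC.foldl_inv (f := fun a => divStep (g a)) (i := fun _ => (0, 0))
    (by unfold divStep; fun_prop) (by fun_prop) hl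
    (S := fun a => 8 * sz (f a).bits.reverse + 3) (((Bd.const _ _).mul hl.bd).add (Bd.const _ _))
    (fun a k s => s.1 < 2 ^ k ∧ s.2 < 2 ^ k) (fun _ => by simp)
    (by
      rintro a k ⟨q, r⟩ c _ ⟨h1, h2⟩
      have h3 : c.toNat ≤ 1 := by cases c <;> simp
      unfold divStep
      cases TreeTM.nlt (Nat.bit c (q, r).2) (g a) <;>
        simp only [Bool.cond_true, Bool.cond_false, Nat.bit_val, pow_succ, Bool.toNat_true,
          Bool.toNat_false] at * <;> omega)
    (by
      rintro a k ⟨q, r⟩ hk ⟨h1, h2⟩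
      have := sz_nat_le h1
      have := sz_nat_le h2
      have := length_le_sz (f a).bits.reverse
      rw [sz_pair]
      dsimp only at *
      omega)
  refine (TC.cond (TC.isPos hg) (TC.fst h) (TC.const 0)).of_eq fun a => ?_
  rcases Nat.eq_zero_or_pos (g a) with h0 | h0
  · simp [h0, TreeTM.isPos]
  · have := div_fold h0 (f a).bits.reverse 0
    rw [bits_fold, Nat.zero_div, Nat.zero_mod] at this
    simp [TreeTM.isPos, h0, this]

@[fun_prop] theorem TC.natAbs {f : α → ℤ} (hf : TC e f) : TC e fun a => (f a).natAbs := by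
  have : TC e fun a => (f a).toNat + (-f a).toNat := by fun_prop
  exact this.of_eq fun a => by omega

@[fun_prop] theorem TC.sum {l : α → List ℕ} (hl : TC e l) : TC e fun a => (l a).sum := by
  refine (TC.foldl_inv (f := fun _ acc (x : ℕ) => acc + x) (i := fun _ => 0)
    (by fun_prop) (by fun_prop) hl (S := fun a => 4 * (sz (l a) + sz (l a)) + 1)
    (((Bd.const _ _).mul (hl.bd.add hl.bd)).add (Bd.const _ _))
    (fun a k s => s ≤ k * 2 ^ sz (l a)) (fun _ => by simp) ?_ ?_).of_eq fun a => ?_
  · intro a k s x hx h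
    have h1 := (lt_two_pow_sz x).trans_le (Nat.pow_le_pow_right (by norm_num) (sz_mem hx))
    rw [Nat.succ_mul]
    omega
  · intro a k s hk h
    refine sz_nat_le (h.trans_lt ?_)
    rw [pow_add]
    exact Nat.mul_lt_mul_of_pos_right ((hk.trans (length_le_sz _)).trans_lt Nat.lt_two_pow_self)
      (by positivity)
  · rw [List.sum_eq_foldl]

theorem Bd.pow_log {Q d : α → ℕ} (h : Bd 0 Q) (c : ℕ) (hd : ∀ a, d a ≤ c * ell (TreeTM.sz a)) :
    Bd 1 fun a => Q a ^ d a := by
  obtain ⟨k, hk⟩ := h
  refine ⟨k * c, fun a => (Nat.pow_le_pow_left (hk a) _).trans ?_⟩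
  rw [← pow_mul]
  refine Nat.pow_le_pow_right (by norm_num) ((Nat.mul_le_mul_left _ (hd a)).trans (le_of_eq ?_))
  ring

/-- The prefix code of a list. -/
theorem enc_list (f : β → List Bool) (hf : ∀ b, f b = (Enc.enc b).enc) (l : List β) :
    l.flatMap (fun a => true :: f a) ++ [false] = (Enc.enc l).enc := by
  induction l with
  | nil => rfl
  | cons b l ih => rw [enc_cons, Tr.enc, ← ih, ← hf]; simp

end Vale.Agent.Common.TreeTM
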