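import Vale.Agent.Common.TreeTC

/-! Lists and Boolean operations in the classes `TC`. -/

namespace Vale.Agent.Common.TreeTM

open Enc

variable {α β γ δ : Type} [Enc α] [Enc β] [Enc γ] [Enc δ] {e : ℕ}

@[fun_prop] theorem TC.not {f : α → Bool} (hf : TC e f) : TC e fun a => !(f a) :=
  (TC.cond hf (TC.const false) (TC.const true)).of_eq fun a => by cases f a <;> rfl

@[fun_prop] theorem TC.and {f g : α → Bool} (hf : TC e f) (hg : TC e g) :
    TC e fun a => (f a && g a) :=
  (TC.cond hf hg (TC.const false)).of_eq fun a => by cases f a <;> rfl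

@[fun_prop] theorem TC.or {f g : α → Bool} (hf : TC e f) (hg : TC e g) :
    TC e fun a => (f a || g a) :=
  (TC.cond hf (TC.const true) hg).of_eq fun a => by cases f a <;> rfl

@[fun_prop] theorem TC.tail {f : α → List β} (hf : TC e f) : TC e fun a => (f a).tail :=
  (TC.lcases (g := fun _ _ l => l) hf hf (by fun_prop)).of_eq fun a => by cases f a <;> rfl

@[fun_prop] theorem TC.headD {f : α → List β} {d : α → β} (hf : TC e f) (hd : TC e d) :
    TC e fun a => (f a).headD (d a) :=
  (TC.lcases (g := fun _ b _ => b) hf hd (by fun_prop)).of_eq fun a => by cases f a <;> rfl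

theorem TC.foldl_take {f : α → β → γ → β} {i : α → β} {l : α → List γ}
    (hf : TC e fun p : α × β × γ => f p.1 p.2.1 p.2.2) (hi : TC e i) (hl : TC e l) {S : α → ℕ}
    (hS : Bd 0 S) (h : ∀ a k, sz (((l a).take k).foldl (f a) (i a)) ≤ S a) :
    TC e fun a => (l a).foldl (f a) (i a) := by
  let step : α × β × List γ → α × β × List γ := fun s =>
    TreeTM.lcases s.2.2 s fun c t => (s.1, f s.1 s.2.1 c, t)
  have hf' : TC e fun p : (α × β × List γ) × γ × List γ => f p.1.1 p.1.2.1 p.2.1 :=
    TC.comp (g := fun p : (α × β × List γ) × γ × List γ => (p.1.1, p.1.2.1, p.2.1)) hf (by fun_prop)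
  have hstep : TC e step := TC.lcases (by fun_prop) (by fun_prop) (by fun_prop)
  have key : ∀ a, ∀ k ≤ (l a).length, step^[k] (a, i a, l a) =
      (a, ((l a).take k).foldl (f a) (i a), (l a).drop k) := by
    intro a k
    induction k with
    | zero => intro _; rfl
    | succ k ih =>
      intro hk
      rw [Function.iterate_succ_apply', ih (by omega),
        List.drop_eq_getElem_cons (show k < (l a).length by omega),
        List.take_succ_eq_append_getElem (show k < (l a).length by omega), List.foldl_append]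
      rfl
  have := TC.iter (e := e) (e₁ := e) (e₂ := 0) (step := step) (cont := fun s => TreeTM.isCons s.2.2)
    (out := fun s => s.2.1) (init := fun a => (a, i a, l a)) hstep (by fun_prop) (by fun_prop)
    (by fun_prop) (by omega) (N := fun a => (l a).length)
    (S := fun a => sz a + S a + sz (l a) + 2)
    ((hl.bd.up (Nat.zero_le _)).mono fun a => length_le_sz _)
    ((((Bd.sz 0).add hS).add hl.bd).add (Bd.const _ _))
    (fun a k hk => by
      rw [key a k hk.le, List.drop_eq_getElem_cons hk]
      rfl)
    (fun a => by rw [key a _ le_rfl]; simp [TreeTM.isCons])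
    (fun a k hk => by
      rw [key a k hk, sz_pair, sz_pair]
      have := h a k
      have := sz_drop (l a) k
      omega)
    (hS.mono fun a => by rw [key a _ le_rfl]; exact h a _)
  refine this.of_eq fun a => ?_
  rw [key a _ le_rfl, List.take_length]

omit [Enc β] [Enc γ] in
theorem foldl_take_inv (P : ℕ → β → Prop) (f : β → γ → β) (l : List γ) (i : β) (h0 : P 0 i)
    (hs : ∀ k acc x, x ∈ l → P k acc → P (k + 1) (f acc x)) (k : ℕ) :
    ∃ j ≤ l.length, P j ((l.take k).foldl f i) := by
  have : ∀ k ≤ l.length, P k ((l.take k).foldl f i) := by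
    intro k
    induction k with
    | zero => intro _; exact h0
    | succ k ih =>
      intro hk
      rw [List.take_succ_eq_append_getElem (show k < l.length by omega), List.foldl_append]
      exact hs _ _ _ (List.getElem_mem _) (ih (by omega))
  by_cases hk : k ≤ l.length
  · exact ⟨k, hk, this k hk⟩
  · refine ⟨l.length, le_rfl, ?_⟩
    have h2 := this _ le_rfl
    rw [List.take_length] at h2
    rwa [List.take_of_length_le (i := k) (l := l) (by omega)]

theorem TC.foldl_inv {f : α → β → γ → β} {i : α → β} {l : α → List γ}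
    (hf : TC e fun p : α × β × γ => f p.1 p.2.1 p.2.2) (hi : TC e i) (hl : TC e l) {S : α → ℕ}
    (hS : Bd 0 S) (P : α → ℕ → β → Prop) (h0 : ∀ a, P a 0 (i a))
    (hs : ∀ a k acc x, x ∈ l a → P a k acc → P a (k + 1) (f a acc x))
    (h : ∀ a k acc, k ≤ (l a).length → P a k acc → sz acc ≤ S a) :
    TC e fun a => (l a).foldl (f a) (i a) :=
  TC.foldl_take hf hi hl hS fun a k => by
    obtain ⟨j, hj, h1⟩ := foldl_take_inv (P a) (f a) (l a) (i a) (h0 a) (hs a) k
    exact h a j _ hj h1

theorem TC.foldl_grow {f : α → β → γ → β} {i : α → β} {l : α → List γ}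
    (hf : TC e fun p : α × β × γ => f p.1 p.2.1 p.2.2) (hi : TC e i) (hl : TC e l)
    {m : α × γ → ℕ} (hm : Bd 0 m) (h : ∀ a acc x, sz (f a acc x) ≤ sz acc + m (a, x)) :
    TC e fun a => (l a).foldl (f a) (i a) := by
  obtain ⟨M, M1, M2⟩ := hm.unif (e := 0) (S := fun a => sz a + sz (l a) + 1)
    (((Bd.sz 0).add hl.bd).add (Bd.const _ _)) (by omega)
  refine TC.foldl_inv hf hi hl (S := fun a => sz (i a) + sz (l a) * M a) (hi.bd.add (hl.bd.mul M1))
    (fun a k acc => sz acc ≤ sz (i a) + k * M a) (fun a => by simp) (fun a k acc x hx hP => ?_)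
    (fun a k acc hk hP => ?_)
  · have h1 := h a acc x
    have h2 := M2 a (a, x) (by
      have := sz_mem hx
      rw [sz_pair]
      omega)
    rw [Nat.succ_mul]
    omega
  · exact hP.trans (Nat.add_le_add_left (Nat.mul_le_mul_right _ (hk.trans (length_le_sz _))) _)

@[fun_prop] theorem TC.reverse {l : α → List β} (hl : TC e l) : TC e fun a => (l a).reverse :=
  (TC.foldl_grow (f := fun _ acc x => x :: acc) (i := fun _ => []) (by fun_prop) (by fun_prop) hl
    (m := fun p => sz p + 1) ((Bd.sz 0).add (Bd.const _ _)) (fun a acc x => by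
      rw [sz_lcons, sz_pair]
      omega)).of_eq fun a => by simp

@[fun_prop] theorem TC.map {f : α → β → γ} {l : α → List β}
    (hf : TC e fun p : α × β => f p.1 p.2) (hl : TC e l) : TC e fun a => (l a).map (f a) := by
  have hf' : TC e fun p : α × List γ × β => f p.1 p.2.2 :=
    TC.comp (g := fun p : α × List γ × β => (p.1, p.2.2)) hf (by fun_prop)
  refine (TC.reverse (TC.foldl_grow (f := fun a acc x => f a x :: acc) (i := fun _ => [])
    (by fun_prop) (by fun_prop) hl (m := fun p => sz (f p.1 p.2) + 1) (hf.bd.add (Bd.const _ _))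
    (fun a acc x => by
      rw [sz_lcons]
      dsimp only
      omega))).of_eq fun a => ?_
  have : ∀ (l : List β) (acc : List γ), l.foldl (fun acc x => f a x :: acc) acc =
      (l.map (f a)).reverse ++ acc := by
    intro l
    induction l with
    | nil => simp
    | cons x l ih => intro acc; simp [ih]
  simp [this]

@[fun_prop] theorem TC.append {l l' : α → List β} (hl : TC e l) (hl' : TC e l') :
    TC e fun a => l a ++ l' a :=
  (TC.foldl_grow (f := fun _ acc x => x :: acc) (i := l') (by fun_prop) hl' (TC.reverse hl)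
    (m := fun p => sz p + 1) ((Bd.sz 0).add (Bd.const _ _)) (fun a acc x => by
      rw [sz_lcons, sz_pair]
      omega)).of_eq fun a => by simp

@[fun_prop] theorem TC.all {f : α → β → Bool} {l : α → List β}
    (hf : TC e fun p : α × β => f p.1 p.2) (hl : TC e l) : TC e fun a => (l a).all (f a) := by
  have hf' : TC e fun p : α × Bool × β => f p.1 p.2.2 :=
    TC.comp (g := fun p : α × Bool × β => (p.1, p.2.2)) hf (by fun_prop)
  refine (TC.foldl_grow (f := fun a acc x => (acc && f a x)) (i := fun _ => true)
    (by fun_prop) (by fun_prop) hl (m := fun _ => 3) (Bd.const _ _)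
    (fun a acc x => (sz_bool _).trans (by omega))).of_eq fun a => ?_
  have : ∀ (l : List β) (acc : Bool), l.foldl (fun acc x => (acc && f a x)) acc =
      (acc && l.all (f a)) := by
    intro l
    induction l with
    | nil => simp
    | cons x l ih => intro acc; simp [ih, Bool.and_assoc]
  simp [this]

/-! ### Binary numbers -/

@[fun_prop] theorem TC.bits {f : α → ℕ} (hf : TC e f) : TC e fun a => (f a).bits :=
  hf.of_enc fun _ => rfl

@[fun_prop] theorem TC.div2 {f : α → ℕ} (hf : TC e f) : TC e fun a => (f a).div2 :=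
  (TC.tail (TC.bits hf)).of_enc fun a => by
    rw [← Nat.div2_bits_eq_tail]
    rfl

@[fun_prop] theorem TC.bodd {f : α → ℕ} (hf : TC e f) : TC e fun a => (f a).bodd :=
  (TC.headD (TC.bits hf) (TC.const false)).of_eq fun a => by
    rw [Nat.bodd_eq_bits_head]
    cases (f a).bits <;> rfl

def isPos (n : ℕ) : Bool := decide (0 < n)

@[fun_prop] theorem TC.isPos {f : α → ℕ} (hf : TC e f) : TC e fun a => isPos (f a) :=
  (TC.isCons (TC.bits hf)).of_eq fun a => by
    have := Nat.size_eq_bits_len (f a)
    have h2 := Nat.size_pos (n := f a)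
    unfold TreeTM.isPos TreeTM.isCons
    cases h : (f a).bits with
    | nil =>
      rw [h] at this
      simp only [List.isEmpty_nil, Bool.not_true, decide_eq_false_iff_not]
      rw [← h2, ← this]
      simp
    | cons b l =>
      rw [h] at this
      simp only [List.isEmpty_cons, Bool.not_false, decide_eq_true_eq]
      rw [← h2, ← this]
      simp

@[fun_prop] theorem TC.bit {c : α → Bool} {f : α → ℕ} (hc : TC e c) (hf : TC e f) :
    TC e fun a => Nat.bit (c a) (f a) := by
  have : TC e fun a => bif (c a || TreeTM.isPos (f a)) then c a :: (f a).bits else [] := by fun_prop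
  refine this.of_enc fun a => ?_
  show enc (Nat.bit (c a) (f a)).bits = _
  congr 1
  by_cases h : f a = 0
  · cases c a <;> simp [h, TreeTM.isPos]
  · rw [Nat.bits_append_bit _ _ (fun h' => absurd h' h)]
    simp [TreeTM.isPos, Nat.pos_of_ne_zero h]

theorem sz_bit (c : Bool) (n : ℕ) : sz (Nat.bit c n) ≤ sz n + 4 := by
  by_cases h : n = 0 ∧ c = false
  · rw [h.1, h.2]
    simp
  · show sz (Nat.bit c n).bits ≤ sz n.bits + 4
    rw [Nat.bits_append_bit _ _ (by cases c <;> simp_all), sz_lcons]
    have := sz_bool c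
    omega

theorem sz_div2 (n : ℕ) : sz n.div2 ≤ sz n := by
  show sz n.div2.bits ≤ sz n.bits
  rw [Nat.div2_bits_eq_tail, ← List.drop_one]
  exact sz_drop _ _

/-- The digits of two numbers, most significant first. -/
def digs (a b : ℕ) : List (Bool × Bool) :=
  ((a.bits ++ b.bits).foldl (fun (s : ℕ × ℕ × List (Bool × Bool)) _ =>
    (s.1.div2, s.2.1.div2, (s.1.bodd, s.2.1.bodd) :: s.2.2)) (a, b, [])).2.2

def dval (l : List (Bool × Bool)) (s : ℕ × ℕ) : ℕ × ℕ :=
  l.foldl (fun s p => (Nat.bit p.1 s.1, Nat.bit p.2 s.2)) s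

theorem dval_digs (a b : ℕ) : dval (digs a b) (0, 0) = (a, b) := by
  have key : ∀ (c : List Bool) (s : ℕ × ℕ × List (Bool × Bool)), s.1 < 2 ^ c.length →
      s.2.1 < 2 ^ c.length → dval (c.foldl (fun (s : ℕ × ℕ × List (Bool × Bool)) _ =>
        (s.1.div2, s.2.1.div2, (s.1.bodd, s.2.1.bodd) :: s.2.2)) s).2.2 (0, 0) =
        dval s.2.2 (s.1, s.2.1) := by
    intro c
    induction c with
    | nil =>
      rintro ⟨x, y, l⟩ h1 h2
      simp only [List.length_nil, pow_zero, Nat.lt_one_iff] at h1 h2
      simp [h1, h2]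
    | cons b c ih =>
      rintro ⟨x, y, l⟩ h1 h2
      rw [List.length_cons, pow_succ] at h1 h2
      dsimp only at h1 h2
      rw [List.foldl_cons, ih _ (by simp only [Nat.div2_val]; omega)
        (by simp only [Nat.div2_val]; omega)]
      simp [dval, Nat.bit_bodd_div2]
  have h : ∀ x y : ℕ, x < 2 ^ (x.bits.length + y) := fun x y =>
    Nat.size_le.1 (by rw [Nat.size_eq_bits_len]; omega)
  exact key _ (a, b, []) (by rw [List.length_append]; exact h _ _)
    (by rw [List.length_append, add_comm]; exact h _ _)

@[fun_prop] theorem TC.digs {f g : α → ℕ} (hf : TC e f) (hg : TC e g) :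
    TC e fun a => digs (f a) (g a) := by
  unfold TreeTM.digs
  refine TC.snd (TC.snd (TC.foldl_grow
    (f := fun _ (s : ℕ × ℕ × List (Bool × Bool)) (_ : Bool) =>
      (s.1.div2, s.2.1.div2, (s.1.bodd, s.2.1.bodd) :: s.2.2))
    (by fun_prop) (by fun_prop) (by fun_prop) (m := fun _ => 8) (Bd.const _ _) ?_))
  rintro a ⟨x, y, l⟩ _
  have := sz_div2 x
  have := sz_div2 y
  have := sz_bool x.bodd
  have := sz_bool y.bodd
  simp only [sz_pair, sz_lcons]
  omega

def addStep (s : ℕ × ℕ) (p : Bool × Bool) : ℕ × ℕ :=
  bif p.1 then (bif p.2 then (Nat.bit false s.2, Nat.bit true s.2)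
    else (Nat.bit true s.1, Nat.bit false s.2))
  else (bif p.2 then (Nat.bit true s.1, Nat.bit false s.2) else (Nat.bit false s.1, Nat.bit true s.1))

theorem add_fold (l : List (Bool × Bool)) : ∀ s t : ℕ, l.foldl addStep (s + t, s + t + 1) =
    ((dval l (s, t)).1 + (dval l (s, t)).2, (dval l (s, t)).1 + (dval l (s, t)).2 + 1) := by
  induction l with
  | nil => intro s t; rfl
  | cons p l ih =>
    intro s t
    have := ih (Nat.bit p.1 s) (Nat.bit p.2 t)
    rw [List.foldl_cons]
    refine Eq.trans ?_ this
    congr 1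
    rcases p with ⟨_ | _, _ | _⟩ <;> simp [addStep, Nat.bit_val] <;> omega

@[fun_prop] theorem TC.add {f g : α → ℕ} (hf : TC e f) (hg : TC e g) :
    TC e fun a => f a + g a := by
  have hd := TC.digs hf hg
  refine (TC.fst (TC.foldl_inv (f := fun _ => addStep) (i := fun _ => (0, 1))
    (by unfold addStep; fun_prop) (by fun_prop) hd
    (S := fun a => 8 * sz (TreeTM.digs (f a) (g a)) + 11)
    (((Bd.const _ _).mul hd.bd).add (Bd.const _ _))
    (fun _ k s => sz s.1 ≤ 4 * k + 5 ∧ sz s.2 ≤ 4 * k + 5) (fun _ => by decide) ?_ ?_)).of_eq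
    fun a => ?_
  · rintro a k ⟨x, y⟩ ⟨p, q⟩ - ⟨h1, h2⟩
    have := sz_bit true x
    have := sz_bit false x
    have := sz_bit true y
    have := sz_bit false y
    cases p <;> cases q <;> simp only [addStep, Bool.cond_true, Bool.cond_false] at * <;> omega
  · rintro a k ⟨x, y⟩ hk ⟨h1, h2⟩
    have := length_le_sz (TreeTM.digs (f a) (g a))
    rw [sz_pair]
    dsimp only at *
    omega
  · have := add_fold (TreeTM.digs (f a) (g a)) 0 0
    rw [dval_digs] at this
    exact (congrArg Prod.fst this).symm

def subStep (s : Bool × ℕ × ℕ) (p : Bool × Bool) : Bool × ℕ × ℕ :=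
  bif s.1 then s else
  bif isPos s.2.1 then
    (bif p.1 then (bif p.2 then (false, Nat.bit false s.2.1, Nat.bit true s.2.2)
      else (false, Nat.bit true s.2.1, Nat.bit false s.2.1))
    else (bif p.2 then (false, Nat.bit true s.2.2, Nat.bit false s.2.2)
      else (false, Nat.bit false s.2.1, Nat.bit true s.2.2)))
  else (bif p.1 then (bif p.2 then s else (false, 1, 0)) else (bif p.2 then (true, 0, 0) else s))

theorem sub_fold (l : List (Bool × Bool)) : ∀ s t : ℕ,
    l.foldl subStep (decide (s < t), s - t, s - t - 1) =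
    (decide ((dval l (s, t)).1 < (dval l (s, t)).2), (dval l (s, t)).1 - (dval l (s, t)).2,
      (dval l (s, t)).1 - (dval l (s, t)).2 - 1) := by
  induction l with
  | nil => intro s t; rfl
  | cons p l ih =>
    intro s t
    have := ih (Nat.bit p.1 s) (Nat.bit p.2 t)
    rw [List.foldl_cons]
    refine Eq.trans ?_ this
    congr 1
    rcases lt_trichotomy s t with h | h | h
    · rcases p with ⟨_ | _, _ | _⟩ <;> simp [subStep, Nat.bit_val, h] <;> omega
    · rcases p with ⟨_ | _, _ | _⟩ <;> simp [subStep, Nat.bit_val, h, isPos]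
    · have h1 : ¬ s < t := by omega
      rcases p with ⟨_ | _, _ | _⟩ <;> simp [subStep, Nat.bit_val, h1, isPos, h] <;> omega

theorem TC.subAux {f g : α → ℕ} (hf : TC e f) (hg : TC e g) :
    TC e fun a => (decide (f a < g a), f a - g a, f a - g a - 1) := by
  have hd := TC.digs hf hg
  refine (TC.foldl_inv (f := fun _ => subStep) (i := fun _ => (false, 0, 0))
    (by unfold subStep; fun_prop) (by fun_prop) hd
    (S := fun a => 8 * sz (TreeTM.digs (f a) (g a)) + 15)
    (((Bd.const _ _).mul hd.bd).add (Bd.const _ _))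
    (fun _ k s => sz s.2.1 ≤ 4 * k + 5 ∧ sz s.2.2 ≤ 4 * k + 5) (fun _ => by decide) ?_ ?_).of_eq
    fun a => ?_
  · rintro a k ⟨c, x, y⟩ ⟨p, q⟩ - ⟨h1, h2⟩
    have := sz_bit true x
    have := sz_bit false x
    have := sz_bit true y
    have := sz_bit false y
    have : sz (1 : ℕ) = 5 := by decide
    have : sz (0 : ℕ) = 1 := by decide
    cases c <;> cases h : TreeTM.isPos x <;> cases p <;> cases q <;>
      simp only [subStep, h, Bool.cond_true, Bool.cond_false] at * <;> omega
  · rintro a k ⟨c, x, y⟩ hk ⟨h1, h2⟩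
    have := length_le_sz (TreeTM.digs (f a) (g a))
    have := sz_bool c
    rw [sz_pair, sz_pair]
    dsimp only at *
    omega
  · have := sub_fold (TreeTM.digs (f a) (g a)) 0 0
    rw [dval_digs] at this
    exact this.symm

@[fun_prop] theorem TC.sub {f g : α → ℕ} (hf : TC e f) (hg : TC e g) :
    TC e fun a => f a - g a := TC.fst (TC.snd (TC.subAux hf hg))

/-- Strict comparison of naturals. -/
def nlt (a b : ℕ) : Bool := decide (a < b)

@[fun_prop] theorem TC.nlt {f g : α → ℕ} (hf : TC e f) (hg : TC e g) :
    TC e fun a => nlt (f a) (g a) := TC.fst (TC.subAux hf hg)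

theorem bits_fold (n : ℕ) : n.bits.reverse.foldl (fun acc c => Nat.bit c acc) 0 = n := by
  induction n using Nat.binaryRec' with
  | zero => simp
  | bit b n h ih => rw [Nat.bits_append_bit _ _ h, List.reverse_cons, List.foldl_append, ih]; rfl

@[fun_prop] theorem TC.mul {f g : α → ℕ} (hf : TC e f) (hg : TC e g) :
    TC e fun a => f a * g a := by
  have hl : TC e fun a => (g a).bits.reverse := by fun_prop
  refine (TC.foldl_inv (f := fun a acc c => acc + acc + bif c then f a else 0) (i := fun _ => 0)
    (by fun_prop) (by fun_prop) hl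
    (S := fun a => 4 * (sz (f a) + sz (g a).bits.reverse) + 1)
    (((Bd.const _ _).mul (hf.bd.add hl.bd)).add (Bd.const _ _))
    (fun a k s => s + f a ≤ f a * 2 ^ k) (fun _ => by simp) ?_ ?_).of_eq fun a => ?_
  · intro a k s c _ h
    rw [pow_succ, ← mul_assoc]
    cases c <;> simp only [Bool.cond_true, Bool.cond_false] <;> omega
  · intro a k s hk h
    refine sz_nat_le ?_
    have h1 := lt_two_pow_sz (f a)
    have h2 : 2 ^ k ≤ 2 ^ sz (g a).bits.reverse :=
      Nat.pow_le_pow_right (by norm_num) (hk.trans (length_le_sz _))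
    rw [pow_add]
    calc s ≤ f a * 2 ^ k := by omega
      _ < _ := Nat.mul_lt_mul_of_lt_of_le h1 h2 (by positivity)
  · have : ∀ (l : List Bool) (s : ℕ),
        l.foldl (fun acc c => acc + acc + bif c then f a else 0) (f a * s) =
        f a * l.foldl (fun acc c => Nat.bit c acc) s := by
      intro l
      induction l with
      | nil => simp
      | cons c l ih =>
        intro s
        rw [List.foldl_cons, List.foldl_cons, ← ih]
        congr 1
        cases c <;> simp [Nat.bit_val] <;> ring
    have h := this (g a).bits.reverse 0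
    rw [bits_fold] at h
    exact h.symm

@[fun_prop] theorem TC.length {l : α → List β} (hl : TC e l) : TC e fun a => (l a).length := by
  refine (TC.foldl_inv (f := fun _ acc (_ : β) => acc + 1) (i := fun _ => 0)
    (by fun_prop) (by fun_prop) hl (S := fun a => 4 * sz (l a) + 1)
    (((Bd.const _ _).mul hl.bd).add (Bd.const _ _)) (fun _ k s => s = k) (fun _ => rfl)
    (fun _ _ _ _ _ h => by rw [h]) ?_).of_eq fun a => by simp
  rintro a k s hk rfl
  have := sz_nat_self s
  have := length_le_sz (l a)
  omega

/-- The list of positions of a list. -/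
def idx (l : List α) : List ℕ := List.range l.length

@[fun_prop] theorem TC.idx {l : α → List β} (hl : TC e l) : TC e fun a => idx (l a) := by
  refine (TC.reverse (TC.foldl_inv (f := fun _ (acc : List ℕ) (_ : β) => acc.length :: acc)
    (i := fun _ => []) (by fun_prop) (by fun_prop) hl
    (S := fun a => sz (l a) * (4 * sz (l a) + 2) + 1)
    ((hl.bd.mul (((Bd.const _ _).mul hl.bd).add (Bd.const _ _))).add (Bd.const _ _))
    (fun _ k s => s = (List.range k).reverse) (fun _ => rfl)
    (fun _ _ _ _ _ h => by rw [h]; simp [List.range_succ]) ?_)).of_eq fun a => ?_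
  · rintro a k s hk rfl
    have h1 := length_le_sz (l a)
    refine (sz_list_le (b := 4 * sz (l a) + 1) fun x hx => ?_).trans ?_
    · have := sz_nat_self x
      simp only [List.mem_reverse, List.mem_range] at hx
      omega
    · simp only [List.length_reverse, List.length_range]
      exact Nat.add_le_add_right (Nat.mul_le_mul_right _ (by omega)) _
  · have : ∀ (t : List β) (k : ℕ), t.foldl (fun (acc : List ℕ) (_ : β) => acc.length :: acc)
        (List.range k).reverse = (List.range (k + t.length)).reverse := by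
      intro t
      induction t with
      | nil => simp
      | cons c t ih =>
        intro k
        have := ih (k + 1)
        rw [List.range_succ, List.reverse_append] at this
        rw [List.foldl_cons, List.length_reverse, List.length_range, List.length_cons,
          show k + (t.length + 1) = k + 1 + t.length by omega, ← this]
        rfl
    have h := this (l a) 0
    simp only [List.range_zero, List.reverse_nil, zero_add] at h
    rw [h, List.reverse_reverse]
    rfl

@[fun_prop] theorem TC.getD {l : α → List β} {i : α → ℕ} {d : α → β} (hl : TC e l) (hi : TC e i)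
    (hd : TC e d) : TC e fun a => (l a).getD (i a) (d a) := by
  have h := TC.foldl_inv (f := fun _ (s : List β × ℕ) (_ : β) =>
      bif TreeTM.isPos s.2 then (s.1.tail, s.2 - 1) else s) (i := fun a => (l a, i a))
    (by fun_prop) (by fun_prop) hl (S := fun a => sz (l a) + 4 * sz (i a) + 2)
    ((hl.bd.add ((Bd.const _ _).mul hi.bd)).add (Bd.const _ _))
    (fun a _ s => sz s.1 ≤ sz (l a) ∧ s.2 ≤ i a) (fun _ => ⟨le_rfl, le_rfl⟩)
    (by
      rintro a k ⟨t, j⟩ _ _ ⟨h1, h2⟩
      have := sz_drop t 1
      rw [List.drop_one] at this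
      cases TreeTM.isPos j <;> simp only [Bool.cond_true, Bool.cond_false] at * <;> omega)
    (by
      rintro a k ⟨t, j⟩ _ ⟨h1, h2⟩
      have := sz_nat_mono h2
      rw [sz_pair]
      dsimp only at *
      omega)
  refine (TC.headD (TC.fst h) hd).of_eq fun a => ?_
  have : ∀ (c t : List β) (j : ℕ), (c.foldl (fun (s : List β × ℕ) (_ : β) =>
      bif TreeTM.isPos s.2 then (s.1.tail, s.2 - 1) else s) (t, j)).1 = t.drop (min j c.length) := by
    intro c
    induction c with
    | nil => simp
    | cons x c ih =>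
      intro t j
      rw [List.foldl_cons]
      cases j with
      | zero => simpa [TreeTM.isPos] using ih t 0
      | succ j =>
        have := ih t.tail j
        simp only [TreeTM.isPos, Nat.succ_pos, decide_true, Bool.cond_true, Nat.add_sub_cancel,
          List.length_cons, Nat.succ_min_succ] at this ⊢
        rw [this]
        simp
  rw [this]
  by_cases hlt : i a < (l a).length
  · rw [min_eq_left hlt.le, List.drop_eq_getElem_cons hlt, List.getD_eq_getElem _ _ hlt]
    rfl
  · rw [min_eq_right (by omega), List.drop_length, List.getD_eq_default _ _ (by omega)]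
    rfl

/-! ### Integers -/

@[fun_prop] theorem TC.toNat {f : α → ℤ} (hf : TC e f) : TC e fun a => (f a).toNat :=
  TC.fst (f := fun a => ((f a).toNat, (-f a).toNat)) (hf.of_enc fun _ => rfl)

@[fun_prop] theorem TC.neg {f : α → ℤ} (hf : TC e f) : TC e fun a => -f a := by
  have h : TC e fun a => ((f a).toNat, (-f a).toNat) := hf.of_enc fun _ => rfl
  refine (TC.pair (TC.snd h) (TC.fst h)).of_enc fun a => ?_
  show enc ((-f a).toNat, (- -f a).toNat) = _
  rw [neg_neg]

@[fun_prop] theorem TC.natCast {f : α → ℕ} (hf : TC e f) : TC e fun a => (f a : ℤ) :=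
  (TC.pair hf (TC.const (0 : ℕ))).of_enc fun a => by
    show enc (((f a : ℕ) : ℤ).toNat, (-((f a : ℕ) : ℤ)).toNat) = _
    simp

@[fun_prop] theorem TC.iadd {f g : α → ℤ} (hf : TC e f) (hg : TC e g) :
    TC e fun a => f a + g a := by
  have : TC e fun a => (((f a).toNat + (g a).toNat) - ((-f a).toNat + (-g a).toNat),
    ((-f a).toNat + (-g a).toNat) - ((f a).toNat + (g a).toNat)) := by fun_prop
  refine this.of_enc fun a => ?_
  show enc ((f a + g a).toNat, (-(f a + g a)).toNat) = _
  congr 2 <;> omega

@[fun_prop] theorem TC.isub {f g : α → ℤ} (hf : TC e f) (hg : TC e g) :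
    TC e fun a => f a - g a := (TC.iadd hf (TC.neg hg)).of_eq fun _ => sub_eq_add_neg _ _

@[fun_prop] theorem TC.imul {f g : α → ℤ} (hf : TC e f) (hg : TC e g) :
    TC e fun a => f a * g a := by
  have : TC e fun a => (((f a).toNat * (g a).toNat + (-f a).toNat * (-g a).toNat : ℕ) : ℤ) -
    (((f a).toNat * (-g a).toNat + (-f a).toNat * (g a).toNat : ℕ) : ℤ) := by fun_prop
  refine this.of_eq fun a => ?_
  have h1 := Int.toNat_sub_toNat_neg (f a)
  have h2 := Int.toNat_sub_toNat_neg (g a)
  push_cast
  conv_lhs => rw [← h1, ← h2]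
  ring

/-- Strict comparison of integers. -/
def ilt (a b : ℤ) : Bool := decide (a < b)

@[fun_prop] theorem TC.ilt {f g : α → ℤ} (hf : TC e f) (hg : TC e g) :
    TC e fun a => ilt (f a) (g a) := by
  have : TC e fun a => TreeTM.isPos (g a - f a).toNat := by fun_prop
  refine this.of_eq fun a => ?_
  simp [TreeTM.ilt, TreeTM.isPos]

@[fun_prop] theorem TC.imax {f g : α → ℤ} (hf : TC e f) (hg : TC e g) :
    TC e fun a => max (f a) (g a) :=
  (TC.cond (TC.ilt hf hg) hg hf).of_eq fun a => by
    unfold TreeTM.ilt
    by_cases h : f a < g a <;> simp [h] <;> omega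

@[fun_prop] theorem TC.imin {f g : α → ℤ} (hf : TC e f) (hg : TC e g) :
    TC e fun a => min (f a) (g a) :=
  (TC.cond (TC.ilt hf hg) hf hg).of_eq fun a => by
    unfold TreeTM.ilt
    by_cases h : f a < g a <;> simp [h] <;> omega

end Vale.Agent.Common.TreeTM
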