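import Vale.Agent.Common.TreeLib

/-! General recursion with an explicit call stack, and export of `TC` to `FinTM2`. -/

namespace Vale.Agent.Common.TreeTM

open Enc Function LoopTM Turing

set_option linter.unusedSectionVars false

variable {α G σ ρ : Type} [Enc α] [Enc G] [Enc σ] [Enc ρ] {e : ℕ}

/-- Execution of a frame: `F (g, f, v)` either returns a value or replaces the frame and calls a
new one. -/
inductive Exec (F : G × σ × ρ → Bool × ρ × σ × σ) (g : G) (b : ℕ) : σ → ρ → ρ → ℕ → Prop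
  | ret (f : σ) (v : ρ) : (F (g, f, v)).1 = true → sz f ≤ b → sz v ≤ b →
      Exec F g b f v (F (g, f, v)).2.1 1
  | call (f : σ) (v r₁ r₂ : ρ) (n₁ n₂ : ℕ) : (F (g, f, v)).1 = false → sz f ≤ b → sz v ≤ b →
      Exec F g b (F (g, f, v)).2.2.2 v r₁ n₁ → Exec F g b (F (g, f, v)).2.2.1 r₁ r₂ n₂ →
      Exec F g b f v r₂ (n₁ + n₂ + 1)

def mstep (F : G × σ × ρ → Bool × ρ × σ × σ) (s : G × List σ × ρ) : G × List σ × ρ :=
  lcases s.2.1 s fun f rest => bif (F (s.1, f, s.2.2)).1 then (s.1, rest, (F (s.1, f, s.2.2)).2.1)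
    else (s.1, (F (s.1, f, s.2.2)).2.2.2 :: (F (s.1, f, s.2.2)).2.2.1 :: rest, s.2.2)

def Good (g : G) (b k : ℕ) (s : G × List σ × ρ) : Prop :=
  s.1 = g ∧ isCons s.2.1 = true ∧ s.2.1.length ≤ k ∧ (∀ x ∈ s.2.1, sz x ≤ b) ∧ sz s.2.2 ≤ b

theorem Exec.sz_le {F : G × σ × ρ → Bool × ρ × σ × σ} {g : G} {b : ℕ} {f v r n}
    (h : Exec F g b f v r n) : sz f ≤ b := by
  cases h <;> assumption

theorem Exec.run {F : G × σ × ρ → Bool × ρ × σ × σ} {g : G} {b : ℕ} {f v r n}
    (h : Exec F g b f v r n) : ∀ rest : List σ, (∀ x ∈ rest, sz x ≤ b) →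
      (mstep F)^[n] (g, f :: rest, v) = (g, rest, r) ∧
      ∀ i < n, Good g b (rest.length + 1 + i) ((mstep F)^[i] (g, f :: rest, v)) := by
  induction h with
  | ret f v h1 h2 h3 =>
    intro rest hr
    refine ⟨by simp [mstep, lcases, h1], fun i hi => ?_⟩
    obtain rfl : i = 0 := by omega
    exact ⟨rfl, rfl, by simp, by simpa using ⟨h2, hr⟩, h3⟩
  | call f v r₁ r₂ n₁ n₂ h1 h2 h3 e1 e2 ih1 ih2 =>
    intro rest hr
    have s1 : mstep F (g, f :: rest, v) =
        (g, (F (g, f, v)).2.2.2 :: (F (g, f, v)).2.2.1 :: rest, v) := by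
      simp [mstep, lcases, h1]
    obtain ⟨a1, a2⟩ := ih1 ((F (g, f, v)).2.2.1 :: rest) (by simpa using ⟨e2.sz_le, hr⟩)
    obtain ⟨b1, b2⟩ := ih2 rest hr
    refine ⟨by rw [iterate_succ_apply, s1, add_comm, iterate_add_apply, a1, b1], fun i hi => ?_⟩
    cases i with
    | zero => exact ⟨rfl, rfl, by simp, by simpa using ⟨h2, hr⟩, h3⟩
    | succ i =>
      rw [iterate_succ_apply, s1]
      by_cases hi1 : i < n₁
      · obtain ⟨c1, c2, c3, c4⟩ := a2 i hi1
        refine ⟨c1, c2, c3.trans ?_, c4⟩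
        rw [List.length_cons]
        omega
      · obtain ⟨j, rfl⟩ : ∃ j, i = j + n₁ := ⟨i - n₁, by omega⟩
        rw [iterate_add_apply, a1]
        obtain ⟨c1, c2, c3, c4⟩ := b2 j (by omega)
        exact ⟨c1, c2, c3.trans (by omega), c4⟩

theorem TC.recur {F : G × σ × ρ → Bool × ρ × σ × σ} (hF : TC 0 F) {g : α → G} {f : α → σ}
    {v res : α → ρ} (hg : TC e g) (hf : TC e f) (hv : TC e v) {N b : α → ℕ} (hN : Bd e N)
    (hb : Bd e b) (h : ∀ a, ∃ n ≤ N a, Exec F (g a) (b a) (f a) (v a) (res a) n)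
    (hr : Bd 0 fun a => sz (res a)) : TC e res := by
  choose n hn hE using h
  have hs : TC 0 (mstep F) := by
    unfold mstep
    exact TC.lcases (by fun_prop) (by fun_prop) (by fun_prop)
  have key := fun a => (hE a).run [] (by simp)
  have := TC.iter (e := e) (e₁ := 0) (e₂ := e) (step := mstep F) (cont := fun s => TreeTM.isCons s.2.1)
    (out := fun s => s.2.2) (init := fun a => (g a, [f a], v a)) hs (by fun_prop) (by fun_prop)
    (by fun_prop) (by omega) (N := n)
    (S := fun a => sz (g a) + ((N a + 1) * (b a + 1) + 1) + (b a + sz (res a)) + 2)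
    (hN.mono hn)
    ((((hg.bd.up (Nat.zero_le _)).add (((hN.add (Bd.const _ _)).mul (hb.add (Bd.const _ _))).add
      (Bd.const _ _))).add (hb.add (hr.up (Nat.zero_le _)))).add (Bd.const _ _))
    (fun a i hi => ((key a).2 i hi).2.1)
    (fun a => by rw [(key a).1]; rfl)
    (fun a i hi => by
      rcases hi.lt_or_eq with hi | rfl
      · obtain ⟨c1, c2, c3, c4, c5⟩ := (key a).2 i hi
        rw [sz_prod, sz_prod (_ : List σ × ρ), c1]
        have h1 := sz_list_le c4
        have h2 : ((mstep F)^[i] (g a, [f a], v a)).2.1.length * (b a + 1) ≤ (N a + 1) * (b a + 1) :=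
          Nat.mul_le_mul_right _ (by
            have := hn a
            simp only [List.length_nil] at c3
            omega)
        omega
      · rw [(key a).1, sz_pair, sz_pair, sz_lnil]
        omega)
    (hr.mono fun a => by rw [(key a).1])
  refine this.of_eq fun a => ?_
  rw [(key a).1]

theorem cost_le {K : Type} (P : Prog K) : ∃ d, ∀ x, 2 ≤ x → (cost P).eval x ≤ x ^ d := by
  have hadd : ∀ x a b u v : ℕ, 2 ≤ x → u ≤ x ^ a → v ≤ x ^ b → u + v ≤ x ^ (a + b + 1) := by
    intro x a b u v hx h1 h2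
    have h3 : x ^ a ≤ x ^ (a + b) := Nat.pow_le_pow_right (by omega) (by omega)
    have h4 : x ^ b ≤ x ^ (a + b) := Nat.pow_le_pow_right (by omega) (by omega)
    have h5 : x ^ (a + b) * 2 ≤ x ^ (a + b) * x := Nat.mul_le_mul_left _ hx
    rw [pow_succ]
    omega
  induction P with
  | push r w => exact ⟨0, fun x _ => by simp [cost]⟩
  | pop r => exact ⟨0, fun x _ => by simp [cost]⟩
  | seq P Q ihP ihQ =>
    obtain ⟨a, ha⟩ := ihP
    obtain ⟨b, hb⟩ := ihQ
    exact ⟨_, fun x hx => by
      simp only [cost, Polynomial.eval_add]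
      exact hadd x a b _ _ hx (ha x hx) (hb x hx)⟩
  | loop r c P ih =>
    obtain ⟨a, ha⟩ := ih
    refine ⟨(a + 0 + 1 + 1) + 0 + 1, fun x hx => ?_⟩
    simp only [cost, Polynomial.eval_add, Polynomial.eval_mul, Polynomial.eval_X,
      Polynomial.eval_one]
    refine hadd x _ 0 _ _ hx ?_ (by simp)
    rw [pow_succ, mul_comm]
    exact Nat.mul_le_mul_right _ (hadd x a 0 _ _ hx (ha x hx) (by simp))
  | cond r c P Q ihP ihQ =>
    obtain ⟨a, ha⟩ := ihP
    obtain ⟨b, hb⟩ := ihQ
    exact ⟨_, fun x hx => by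
      simp only [cost, Polynomial.eval_add, Polynomial.eval_one]
      exact hadd x _ 0 _ _ hx (hadd x a b _ _ hx (ha x hx) (hb x hx)) (by simp)⟩

/-- A function of class `TC e` is computed by a `FinTM2` in time `2^(O(log^(e+1) L))`. -/
theorem TC.toTM {β ι κ : Type} [Enc β] {f : α → β} (h : TC e f) (ea : ι → List Bool)
    (eb : κ → List Bool) (F : ι → κ) (p : ι → α) (hin : ∀ i, ea i = (enc (p i)).enc)
    (hout : ∀ i, eb (F i) = (enc (f (p i))).enc) :
    ∃ (C : ℕ) (tm : TM2ComputableInTime ea eb F), (∀ k, Finite (tm.tm.Γ k)) ∧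
      ∀ L, tm.time L ≤ 2 ^ (C * (Nat.log 2 L + 1) ^ (e + 1)) := by
  obtain ⟨P, m, ⟨k, hk⟩, -, h3⟩ := h
  obtain ⟨d, hd⟩ := cost_le (compile P)
  have h1 : ∀ l : List Bool, initList (machine Rg.D Rg.D (compile P)) l =
      (⟨some (start (compile P)), false, st l [] [] []⟩ :
        TM2.Cfg (fun _ : Rg => Bool) (Lab (compile P)) Bool) := by
    intro l
    have : (initList (machine Rg.D Rg.D (compile P)) l).stk = (st l [] [] [] : St Rg) := by
      funext (k : Rg)
      cases k <;> rfl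
    rw [← this]
    rfl
  have h2 : ∀ l : List Bool, haltList (machine Rg.D Rg.D (compile P)) l =
      (⟨none, false, st l [] [] []⟩ : TM2.Cfg (fun _ : Rg => Bool) (Lab (compile P)) Bool) := by
    intro l
    have : (haltList (machine Rg.D Rg.D (compile P)) l).stk = (st l [] [] [] : St Rg) := by
      funext (k : Rg)
      cases k <;> rfl
    rw [← this]
    rfl
  have h4 : ∀ i, Run (2 ^ ((k + 1) * ell (ea i).length ^ (e + 1))) (compile P)
      (st (ea i) [] [] []) (st (eb (F i)) [] [] []) := by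
    intro i
    have := (h3 (p i) (2 ^ ((k + 1) * ell (ea i).length ^ (e + 1))) ((hk _).trans (by
      rw [hin i]
      exact Nat.pow_le_pow_right (by norm_num) (Nat.mul_le_mul_right _ (by omega))))).run []
    rwa [List.append_nil, List.append_nil, ← hin i, ← hout i] at this
  have h5 := fun i => sim (code (compile P) _root_.id none) _ (compile P) _root_.id none
    (fun _ => rfl) _ _ (h4 i)
  refine ⟨(k + 1) * 2 ^ (e + 1) * d,
    { tm := machine Rg.D Rg.D (compile P)
      inputAlphabet := Equiv.refl Bool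
      outputAlphabet := Equiv.refl Bool
      time := fun L => (cost (compile P)).eval (2 ^ ((k + 1) * ell L ^ (e + 1)))
      outputsFun := fun a =>
        { steps := (h5 a).choose
          evals_in_steps := ?_
          steps_le_m := (h5 a).choose_spec.1 } }, fun _ => (inferInstance : Finite Bool),
    fun L => ?_⟩
  · have := (h5 a).choose_spec.2
    simp only [Equiv.invFun_as_coe, Equiv.refl_symm, Option.map_some]
    erw [List.map_id, List.map_id, h1, h2]
    exact this
  · have h6 := one_le_ell_pow L (e + 1)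
    refine (hd _ ?_).trans ?_
    · calc 2 = 2 ^ 1 := rfl
        _ ≤ _ := Nat.pow_le_pow_right (by norm_num) (by nlinarith)
    · rw [← pow_mul]
      refine Nat.pow_le_pow_right (by norm_num) ?_
      have h7 : ell L ^ (e + 1) ≤ 2 ^ (e + 1) * (Nat.log 2 L + 1) ^ (e + 1) := by
        rw [← mul_pow]
        exact Nat.pow_le_pow_left (by unfold ell; omega) _
      calc (k + 1) * ell L ^ (e + 1) * d ≤ (k + 1) * (2 ^ (e + 1) * (Nat.log 2 L + 1) ^ (e + 1)) * d :=
            Nat.mul_le_mul_right _ (Nat.mul_le_mul_left _ h7)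
        _ = _ := by ring

end Vale.Agent.Common.TreeTM
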