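import Vale.Agent.Common.TreeTM
import Mathlib.Data.Nat.Log
import Mathlib.Data.Nat.Size
import Mathlib.Tactic.FunProp

/-! Time classes `TC e f`: `f` is computed by a tree program in time `2^(O(log^(e+1)))`, with
output of polynomial size.  `TC 0` is polynomial time, `TC 1` quasi-polynomial time. -/

namespace Vale.Agent.Common.TreeTM

class Enc (α : Type) where
  enc : α → Tr

open Enc

def encL {α : Type} (f : α → Tr) : List α → Tr
  | [] => .nil
  | a :: l => .cons (f a) (encL f l)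

instance : Enc Bool := ⟨tb⟩
instance {α β : Type} [Enc α] [Enc β] : Enc (α × β) := ⟨fun p => .cons (enc p.1) (enc p.2)⟩
instance {α : Type} [Enc α] : Enc (List α) := ⟨encL enc⟩
instance : Enc ℕ := ⟨fun n => enc n.bits⟩
instance : Enc ℤ := ⟨fun z => enc (z.toNat, (-z).toNat)⟩

variable {α β γ δ : Type} [Enc α] [Enc β] [Enc γ] [Enc δ]

def sz (a : α) : ℕ := (enc a).sz

theorem enc_pair (a : α) (b : β) : enc (a, b) = .cons (enc a) (enc b) := rfl
theorem enc_nil : enc ([] : List α) = .nil := rfl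
theorem enc_cons (a : α) (l : List α) : enc (a :: l) = .cons (enc a) (enc l) := rfl
theorem enc_bool (b : Bool) : enc b = tb b := rfl

theorem sz_pair (a : α) (b : β) : sz (a, b) = sz a + sz b + 1 := sz_cons _ _
theorem sz_prod (p : α × β) : sz p = sz p.1 + sz p.2 + 1 := sz_cons _ _
theorem sz_lnil : sz ([] : List α) = 1 := rfl
theorem sz_lcons (a : α) (l : List α) : sz (a :: l) = sz a + sz l + 1 := sz_cons _ _
theorem sz_bool (b : Bool) : sz b ≤ 3 := by cases b <;> decide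
theorem one_le_sz (a : α) : 1 ≤ sz a := sz_pos _

theorem length_le_sz (l : List α) : l.length ≤ sz l := by
  induction l with
  | nil => simp
  | cons a l ih => rw [sz_lcons, List.length_cons]; omega

theorem sz_mem {l : List α} {a : α} (h : a ∈ l) : sz a ≤ sz l := by
  induction l with
  | nil => simp at h
  | cons b l ih =>
    rw [sz_lcons]
    rcases List.mem_cons.1 h with rfl | h
    · omega
    · have := ih h
      omega

theorem sz_drop (l : List α) (k : ℕ) : sz (l.drop k) ≤ sz l := by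
  induction l generalizing k with
  | nil => simp
  | cons b l ih =>
    cases k with
    | zero => simp
    | succ k =>
      have := ih k
      rw [List.drop_succ_cons, sz_lcons]
      omega

theorem sz_list_le {l : List α} {b : ℕ} (h : ∀ a ∈ l, sz a ≤ b) :
    sz l ≤ l.length * (b + 1) + 1 := by
  induction l with
  | nil => simp [sz_lnil]
  | cons a l ih =>
    have h1 := h a (by simp)
    have h2 := ih fun x hx => h x (by simp [hx])
    rw [sz_lcons, List.length_cons, Nat.succ_mul]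
    omega

theorem sz_nat_le {n k : ℕ} (h : n < 2 ^ k) : sz n ≤ 4 * k + 1 := by
  have h1 : sz n ≤ n.bits.length * (3 + 1) + 1 := sz_list_le (l := n.bits) fun a _ => sz_bool a
  have h2 : n.bits.length ≤ k := by
    rw [Nat.size_eq_bits_len]
    exact Nat.size_le.2 h
  omega

theorem lt_two_pow_sz (n : ℕ) : n < 2 ^ sz n := by
  have h1 : n.bits.length ≤ sz n := length_le_sz n.bits
  rw [Nat.size_eq_bits_len] at h1
  exact Nat.size_le.1 h1

theorem sz_nat_mono {n m : ℕ} (h : n ≤ m) : sz n ≤ 4 * sz m + 1 :=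
  sz_nat_le (h.trans_lt (lt_two_pow_sz m))

theorem sz_nat_self (n : ℕ) : sz n ≤ 4 * n + 1 := sz_nat_le Nat.lt_two_pow_self

theorem sz_int_le {z : ℤ} {k : ℕ} (h1 : -2 ^ k < z) (h2 : z < 2 ^ k) : sz z ≤ 8 * k + 3 := by
  have h0 : ((2 ^ k : ℕ) : ℤ) = 2 ^ k := by push_cast; rfl
  have a1 := sz_nat_le (n := z.toNat) (k := k) (by omega)
  have a2 := sz_nat_le (n := (-z).toNat) (k := k) (by omega)
  have : sz z = sz z.toNat + sz (-z).toNat + 1 := sz_cons _ _
  omega

theorem int_lt_two_pow_sz (z : ℤ) : -2 ^ sz z < z ∧ z < 2 ^ sz z := by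
  have h0 : ((2 ^ sz z : ℕ) : ℤ) = 2 ^ sz z := by push_cast; rfl
  have : sz z = sz z.toNat + sz (-z).toNat + 1 := sz_cons _ _
  have a1 := (lt_two_pow_sz z.toNat).trans_le
    (Nat.pow_le_pow_right (by norm_num) (show _ ≤ sz z by omega))
  have a2 := (lt_two_pow_sz (-z).toNat).trans_le
    (Nat.pow_le_pow_right (by norm_num) (show _ ≤ sz z by omega))
  omega

/-! ### Bounds -/

def ell (s : ℕ) : ℕ := Nat.log 2 s + 2

theorem ell_mono {s t : ℕ} (h : s ≤ t) : ell s ≤ ell t :=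
  Nat.add_le_add_right (Nat.log_mono_right h) 2

theorem one_le_ell_pow (s e : ℕ) : 1 ≤ ell s ^ e := Nat.one_le_pow _ _ (by unfold ell; omega)

def Bd (e : ℕ) (m : α → ℕ) : Prop := ∃ k, ∀ a, m a ≤ 2 ^ (k * ell (sz a) ^ (e + 1))

theorem Bd.mono {e : ℕ} {m m' : α → ℕ} (h : Bd e m') (h1 : ∀ a, m a ≤ m' a) : Bd e m := by
  obtain ⟨k, hk⟩ := h
  exact ⟨k, fun a => (h1 a).trans (hk a)⟩

theorem Bd.const (e c : ℕ) : Bd e (fun _ : α => c) :=
  ⟨c, fun a => Nat.lt_two_pow_self.le.trans (Nat.pow_le_pow_right (by norm_num)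
    (Nat.le_mul_of_pos_right _ (one_le_ell_pow _ _)))⟩

theorem Bd.mul {e : ℕ} {m m' : α → ℕ} (h : Bd e m) (h' : Bd e m') : Bd e fun a => m a * m' a := by
  obtain ⟨k, hk⟩ := h
  obtain ⟨k', hk'⟩ := h'
  refine ⟨k + k', fun a => ?_⟩
  rw [add_mul, pow_add]
  exact Nat.mul_le_mul (hk a) (hk' a)

theorem Bd.add {e : ℕ} {m m' : α → ℕ} (h : Bd e m) (h' : Bd e m') : Bd e fun a => m a + m' a := by
  obtain ⟨k, hk⟩ := h
  obtain ⟨k', hk'⟩ := h'
  refine ⟨k + k' + 1, fun a => ?_⟩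
  have h1 := hk a
  have h2 := hk' a
  have h3 := one_le_ell_pow (sz a) (e + 1)
  set L := ell (sz a) ^ (e + 1)
  have h4 : 2 ^ (k * L) ≤ 2 ^ ((k + k') * L) :=
    Nat.pow_le_pow_right (by norm_num) (Nat.mul_le_mul_right _ (by omega))
  have h5 : 2 ^ (k' * L) ≤ 2 ^ ((k + k') * L) :=
    Nat.pow_le_pow_right (by norm_num) (Nat.mul_le_mul_right _ (by omega))
  have h6 : 2 ^ ((k + k') * L + 1) ≤ 2 ^ ((k + k' + 1) * L) :=
    Nat.pow_le_pow_right (by norm_num) (by rw [Nat.succ_mul]; omega)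
  rw [pow_succ] at h6
  show m a + m' a ≤ _
  omega

theorem Bd.up {e e' : ℕ} {m : α → ℕ} (h : Bd e m) (he : e ≤ e') : Bd e' m := by
  obtain ⟨k, hk⟩ := h
  refine ⟨k, fun a => (hk a).trans (Nat.pow_le_pow_right (by norm_num) (Nat.mul_le_mul_left _
    (Nat.pow_le_pow_right (by unfold ell; omega) (by omega))))⟩

theorem Bd.sz (e : ℕ) : Bd e fun a : α => sz a := by
  refine Bd.up (e := 0) ⟨1, fun a => ?_⟩ (Nat.zero_le _)
  have := Nat.lt_pow_succ_log_self (b := 2) (by norm_num) (TreeTM.sz a)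
  refine this.le.trans (Nat.pow_le_pow_right (by norm_num) ?_)
  simp [ell]

theorem Bd.lift {e e₁ e₂ : ℕ} {S : α → ℕ} (h : Bd e₂ S) (he : (e₂ + 1) * (e₁ + 1) ≤ e + 1)
    (k : ℕ) : Bd e fun a => 2 ^ (k * ell (S a) ^ (e₁ + 1)) := by
  obtain ⟨k', hk⟩ := h
  refine ⟨k * (k' + 2) ^ (e₁ + 1), fun a => Nat.pow_le_pow_right (by norm_num) ?_⟩
  have h1 : ell (S a) ≤ (k' + 2) * ell (TreeTM.sz a) ^ (e₂ + 1) := by
    have h2 := Nat.log_mono_right (b := 2) (hk a)
    rw [Nat.log_pow (by norm_num)] at h2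
    have h3 := one_le_ell_pow (TreeTM.sz a) (e₂ + 1)
    rw [add_mul]
    unfold ell at *
    omega
  rw [mul_assoc]
  refine Nat.mul_le_mul_left _ ((Nat.pow_le_pow_left h1 _).trans ?_)
  rw [mul_pow, ← pow_mul]
  exact Nat.mul_le_mul_left _ (Nat.pow_le_pow_right (by unfold ell; omega) he)

/-- A bound in terms of any object whose size is at most `S a`. -/
theorem Bd.unif {e e₁ e₂ : ℕ} {m : β → ℕ} {S : α → ℕ} (hm : Bd e₁ m) (h : Bd e₂ S)
    (he : (e₂ + 1) * (e₁ + 1) ≤ e + 1) :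
    ∃ M : α → ℕ, Bd e M ∧ ∀ a b, TreeTM.sz b ≤ S a → m b ≤ M a := by
  obtain ⟨k, hk⟩ := hm
  refine ⟨_, h.lift he k, fun a b hb => (hk b).trans (Nat.pow_le_pow_right (by norm_num)
    (Nat.mul_le_mul_left _ (Nat.pow_le_pow_left (ell_mono hb) _)))⟩

theorem Bd.comp {e : ℕ} {m : β → ℕ} {g : α → β} (hm : Bd e m)
    (h : Bd 0 fun a => TreeTM.sz (g a)) : Bd e fun a => m (g a) := by
  obtain ⟨M, h1, h2⟩ := hm.unif (e := e) h (by omega)
  exact h1.mono fun a => h2 a _ le_rfl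

/-! ### The classes -/

@[fun_prop] def TC (e : ℕ) (f : α → β) : Prop :=
  ∃ (F : Fn) (m : α → ℕ), Bd e m ∧ (Bd 0 fun a => sz (f a)) ∧
    ∀ a b, m a ≤ b → Ev b F (enc a) (enc (f a))

variable {e : ℕ}

theorem TC.bd {f : α → β} (h : TC e f) : Bd 0 fun a => sz (f a) := h.choose_spec.choose_spec.2.1

theorem TC.up {e' : ℕ} {f : α → β} (h : TC e f) (he : e ≤ e') : TC e' f := by
  obtain ⟨F, m, h1, h2, h3⟩ := h
  exact ⟨F, m, h1.up he, h2, h3⟩

theorem TC.of_enc {f : α → β} {g : α → γ} (h : TC e f) (hg : ∀ a, enc (g a) = enc (f a)) :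
    TC e g := by
  obtain ⟨F, m, h1, h2, h3⟩ := h
  refine ⟨F, m, h1, h2.mono fun a => ?_, fun a => hg a ▸ h3 a⟩
  simp [sz, hg a]

theorem TC.of_eq {f g : α → β} (h : TC e f) (hg : ∀ a, g a = f a) : TC e g :=
  h.of_enc fun a => by rw [hg a]

@[fun_prop] theorem TC.id : TC e fun a : α => a :=
  ⟨.id, fun _ => 0, Bd.const _ _, Bd.sz 0, fun _ _ _ => rfl⟩

def constFn : Tr → Fn
  | .nil => .nil
  | .cons a b => .pair (constFn a) (constFn b)

theorem ev_const {β : ℕ} {x : Tr} (hx : x.sz ≤ β) : ∀ t : Tr, t.sz ≤ β → Ev β (constFn t) x t := by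
  intro t
  induction t with
  | nil => exact fun _ => ⟨rfl, hx⟩
  | cons a b iha ihb =>
    intro h
    rw [sz_cons] at h
    exact ⟨a, b, iha (by omega), ihb (by omega), rfl, hx, by omega⟩

@[fun_prop] theorem TC.const (b : β) : TC e fun _ : α => b :=
  ⟨constFn (enc b), fun a => sz a + sz b, (Bd.sz e).add (Bd.const _ _), Bd.const _ _,
    fun _ _ h => ev_const ((Nat.le_add_right _ _).trans h) _ ((Nat.le_add_left _ _).trans h)⟩

@[fun_prop] theorem TC.comp {f : β → γ} {g : α → β} (hf : TC e f) (hg : TC e g) :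
    TC e fun a => f (g a) := by
  obtain ⟨F, m, h1, h2, h3⟩ := hf
  obtain ⟨G, m', h1', h2', h3'⟩ := hg
  exact ⟨.comp F G, fun a => m (g a) + m' a, (h1.comp h2').add h1', h2.comp h2', fun a b h =>
    ⟨_, h3' a b ((Nat.le_add_left _ _).trans h), h3 _ b ((Nat.le_add_right _ _).trans h)⟩⟩

@[fun_prop] theorem TC.pair {f : α → β} {g : α → γ} (hf : TC e f) (hg : TC e g) :
    TC e fun a => (f a, g a) := by
  obtain ⟨F, m, h1, h2, h3⟩ := hf
  obtain ⟨G, m', h1', h2', h3'⟩ := hg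
  refine ⟨.pair F G, fun a => m a + m' a + sz a + sz (g a),
    ((h1.add h1').add (Bd.sz e)).add (h2'.up (Nat.zero_le _)),
    ((h2.add h2').add (Bd.const 0 1)).mono fun a => (sz_pair _ _).le, fun a b h => ?_⟩
  dsimp only at h
  exact ⟨_, _, h3 a b (by omega), h3' a b (by omega), rfl, show sz a ≤ b by omega,
    show sz (g a) ≤ b by omega⟩

theorem TC.fst' : TC e fun p : α × β => p.1 :=
  ⟨.fst, fun a => sz a, Bd.sz e, (Bd.sz 0).mono fun p => by
    have := sz_prod p
    show sz p.1 ≤ sz p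
    omega, fun _ _ h => ⟨⟨_, rfl⟩, h⟩⟩

theorem TC.snd' : TC e fun p : α × β => p.2 :=
  ⟨.snd, fun a => sz a, Bd.sz e, (Bd.sz 0).mono fun p => by
    have := sz_prod p
    show sz p.2 ≤ sz p
    omega, fun _ _ h => ⟨⟨_, rfl⟩, h⟩⟩

@[fun_prop] theorem TC.fst {f : α → β × γ} (hf : TC e f) : TC e fun a => (f a).1 :=
  TC.comp TC.fst' hf

@[fun_prop] theorem TC.snd {f : α → β × γ} (hf : TC e f) : TC e fun a => (f a).2 :=
  TC.comp TC.snd' hf

@[fun_prop] theorem TC.cond {c : α → Bool} {f g : α → β} (hc : TC e c) (hf : TC e f)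
    (hg : TC e g) : TC e fun a => cond (c a) (f a) (g a) := by
  obtain ⟨P, mp, p1, -, p3⟩ := TC.pair hc TC.id
  obtain ⟨F, m, h1, h2, h3⟩ := hf
  obtain ⟨G, m', h1', h2', h3'⟩ := hg
  refine ⟨.comp (.ite F G) P, fun a => mp a + m a + m' a, (p1.add h1).add h1',
    (h2.add h2').mono fun a => ?_, fun a b hb => ?_⟩
  · dsimp only
    cases c a <;> simp
  · dsimp only at hb p3 ⊢
    refine ⟨_, p3 a b (by omega), enc a, ?_⟩
    cases c a
    · exact Or.inr ⟨rfl, h3' a b (by omega)⟩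
    · exact Or.inl ⟨rfl, h3 a b (by omega)⟩

@[fun_prop] theorem TC.cons {f : α → β} {g : α → List β} (hf : TC e f) (hg : TC e g) :
    TC e fun a => f a :: g a := (TC.pair hf hg).of_enc fun _ => rfl

def isCons (l : List α) : Bool := !l.isEmpty

theorem TC.isCons' : TC e fun l : List α => isCons l := by
  refine ⟨.isCons, fun a => sz a, Bd.sz e, (Bd.const 0 3).mono fun _ => sz_bool _, fun l _ h =>
    ⟨?_, h⟩⟩
  cases l with
  | nil => exact Or.inl ⟨rfl, rfl⟩
  | cons a l => exact Or.inr ⟨⟨_, _, rfl⟩, rfl⟩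

@[fun_prop] theorem TC.isCons {f : α → List β} (hf : TC e f) : TC e fun a => isCons (f a) :=
  TC.comp TC.isCons' hf

def lcases (l : List β) (x : γ) (g : β → List β → γ) : γ :=
  match l with
  | [] => x
  | b :: l => g b l

theorem TC.lcases {s : α → List β} {x : α → γ} {g : α → β → List β → γ} (hs : TC e s)
    (hx : TC e x) (hg : TC e fun p : α × β × List β => g p.1 p.2.1 p.2.2) :
    TC e fun a => lcases (s a) (x a) (g a) := by
  have hp : TC e fun a => (a, s a) := TC.pair TC.id hs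
  obtain ⟨P, mp, p1, -, p3⟩ := TC.pair (TC.isCons hs) hp
  obtain ⟨F, m, h1, h2, h3⟩ := TC.comp hx (TC.fst' (α := α) (β := List β))
  obtain ⟨G, m', h1', h2', h3'⟩ := hg
  obtain ⟨M, M1, M2⟩ := h1'.unif (e := e) hp.bd (by omega)
  obtain ⟨N, N1, N2⟩ := h2'.unif (e := 0) hp.bd (by omega)
  refine ⟨.comp (.ite G F) P, fun a => mp a + m (a, s a) + M a, (p1.add (h1.comp hp.bd)).add M1,
    (hx.bd.add N1).mono fun a => ?_, fun a b hb => ?_⟩
  · have := N2 a
    dsimp only at this ⊢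
    generalize s a = l at this
    cases l with
    | nil => simp [TreeTM.lcases]
    | cons b l =>
      have := this (a, b, l) le_rfl
      simp only [TreeTM.lcases] at this ⊢
      omega
  · have h4 := M2 a
    dsimp only at hb p3 h4 ⊢
    refine ⟨_, p3 a b (by omega), enc (a, s a), ?_⟩
    generalize s a = l at h4 hb
    cases l with
    | nil => exact Or.inr ⟨rfl, h3 (a, []) b (by omega)⟩
    | cons c l =>
      have := h4 (a, c, l) le_rfl
      exact Or.inl ⟨rfl, h3' (a, c, l) b (by omega)⟩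

/-- The general loop. -/
theorem TC.iter {σ : Type} [Enc σ] {e₁ e₂ : ℕ} {step : σ → σ} {cont : σ → Bool} {out : σ → γ}
    {init : α → σ} (hs : TC e₁ step) (hc : TC e₁ cont) (ho : TC e₁ out) (hi : TC e init)
    (he : (e₂ + 1) * (e₁ + 1) ≤ e + 1) {N S : α → ℕ} (hN : Bd e N) (hS : Bd e₂ S)
    (h1 : ∀ a, ∀ i < N a, cont (step^[i] (init a)) = true)
    (h2 : ∀ a, cont (step^[N a] (init a)) = false)
    (h3 : ∀ a, ∀ i ≤ N a, sz (step^[i] (init a)) ≤ S a)
    (h4 : Bd 0 fun a => sz (out (step^[N a] (init a)))) :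
    TC e fun a => out (step^[N a] (init a)) := by
  have he1 : e₁ ≤ e := by nlinarith
  obtain ⟨B, mb, b1, -, b3⟩ : TC e₁ fun p : Bool × σ => (cont (step p.2), step p.2) := by fun_prop
  obtain ⟨O, mo, o1, -, o3⟩ : TC e₁ fun p : Bool × σ => out p.2 := by fun_prop
  obtain ⟨I, mi, i1, -, i3⟩ : TC e fun a => (cont (init a), init a) :=
    TC.pair (TC.comp (hc.up he1) hi) hi
  have hS' : Bd e₂ fun a => S a + 4 := hS.add (Bd.const _ _)
  obtain ⟨MB, B1, B2⟩ := b1.unif (e := e) hS' he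
  obtain ⟨MO, O1, O2⟩ := o1.unif (e := e) hS' he
  have hsz : ∀ a, ∀ i ≤ N a, sz (cont (step^[i] (init a)), step^[i] (init a)) ≤ S a + 4 := by
    intro a i hi
    have := h3 a i hi
    have := sz_bool (cont (step^[i] (init a)))
    rw [sz_pair]
    omega
  refine ⟨.comp O (.comp (.loop B) I), fun a => MB a + MO a + mi a + N a,
    ((B1.add O1).add i1).add hN, h4, fun a b hb => ?_⟩
  dsimp only at hb ⊢
  refine ⟨enc (cont (step^[N a] (init a)), step^[N a] (init a)), ⟨_, i3 a b (by omega), N a,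
      by omega, ?_, ⟨_, by rw [h2 a]; rfl⟩⟩, o3 _ b ?_⟩
  · have key : ∀ i ≤ N a, Iter (Ev b B) i (enc (cont (init a), init a))
        (enc (cont (step^[i] (init a)), step^[i] (init a))) := by
      intro i
      induction i with
      | zero => intro _; rfl
      | succ i ih =>
        intro hi
        refine (ih (by omega)).trans (m := 1) ⟨⟨_, by rw [h1 a i (by omega)]; rfl⟩, _, ?_, rfl⟩
        rw [Function.iterate_succ_apply']
        have := B2 a _ (hsz a i (by omega))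
        exact b3 _ b (by omega)
    exact key _ le_rfl
  · have := O2 a _ (hsz a _ le_rfl)
    omega

end Vale.Agent.Common.TreeTM
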