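import Vale.Agent.Common.LoopTM2

/-! A point-free language of functions on binary trees, compiled to the stack language. -/

namespace Vale.Agent.Common.TreeTM

open Function LoopTM

inductive Tr : Type
  | nil : Tr
  | cons (a b : Tr) : Tr

def Tr.enc : Tr → List Bool
  | .nil => [false]
  | .cons a b => true :: (a.enc ++ b.enc)

def Tr.sz (t : Tr) : ℕ := t.enc.length

@[simp] theorem sz_nil : Tr.nil.sz = 1 := rfl
@[simp] theorem sz_cons (a b : Tr) : (Tr.cons a b).sz = a.sz + b.sz + 1 := by
  simp [Tr.sz, Tr.enc]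

theorem sz_pos (t : Tr) : 1 ≤ t.sz := by cases t <;> simp

def tb (b : Bool) : Tr := if b then .cons .nil .nil else .nil

inductive Fn : Type
  | nil : Fn
  | id : Fn
  | fst : Fn
  | snd : Fn
  | isCons : Fn
  | pair (f g : Fn) : Fn
  | comp (f g : Fn) : Fn
  | ite (f g : Fn) : Fn
  | loop (f : Fn) : Fn

/-- `Iter R n x y`: `n` steps of `R` from states whose flag is on. -/
def Iter (R : Tr → Tr → Prop) : ℕ → Tr → Tr → Prop
  | 0, x, y => y = x
  | n + 1, x, y => (∃ r, x = .cons (tb true) r) ∧ ∃ z, R x z ∧ Iter R n z y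

/-- Evaluation with all loop counts and moved values bounded by `β`. -/
def Ev (β : ℕ) : Fn → Tr → Tr → Prop
  | .nil, x, y => y = .nil ∧ x.sz ≤ β
  | .id, x, y => y = x
  | .fst, x, y => (∃ b, x = .cons y b) ∧ x.sz ≤ β
  | .snd, x, y => (∃ a, x = .cons a y) ∧ x.sz ≤ β
  | .isCons, x, y => ((x = .nil ∧ y = tb false) ∨ ((∃ a b, x = .cons a b) ∧ y = tb true)) ∧
      x.sz ≤ β
  | .pair f g, x, y => ∃ a b, Ev β f x a ∧ Ev β g x b ∧ y = .cons a b ∧ x.sz ≤ β ∧ b.sz ≤ β
  | .comp f g, x, y => ∃ z, Ev β g x z ∧ Ev β f z y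
  | .ite f g, x, y => ∃ r, (x = .cons (tb true) r ∧ Ev β f r y) ∨ (x = .cons (tb false) r ∧ Ev β g r y)
  | .loop f, x, y => ∃ m ≤ β, Iter (Ev β f) m x y ∧ ∃ r, y = .cons (tb false) r

theorem Iter.mono {R R' : Tr → Tr → Prop} (h : ∀ x y, R x y → R' x y) :
    ∀ {n x y}, Iter R n x y → Iter R' n x y := by
  intro n
  induction n with
  | zero => intro x y h; exact h
  | succ n ih =>
    rintro x y ⟨h1, z, h2, h3⟩
    exact ⟨h1, z, h _ _ h2, ih h3⟩

theorem Iter.trans {R : Tr → Tr → Prop} : ∀ {n m x y z}, Iter R n x y → Iter R m y z →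
    Iter R (n + m) x z := by
  intro n
  induction n with
  | zero =>
    intro m x y z h1 h2
    rw [show y = x from h1] at h2
    simpa using h2
  | succ n ih =>
    rintro m x y z ⟨h1, t, h2, h3⟩ h4
    rw [show n + 1 + m = (n + m) + 1 by omega]
    exact ⟨h1, t, h2, ih h3 h4⟩

theorem Ev.mono {β β' : ℕ} (h : β ≤ β') : ∀ {F : Fn} {x y : Tr}, Ev β F x y → Ev β' F x y := by
  intro F
  induction F with
  | nil => exact fun h1 => ⟨h1.1, h1.2.trans h⟩
  | id => exact fun h1 => h1
  | fst => exact fun h1 => ⟨h1.1, h1.2.trans h⟩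
  | snd => exact fun h1 => ⟨h1.1, h1.2.trans h⟩
  | isCons => exact fun h1 => ⟨h1.1, h1.2.trans h⟩
  | pair f g ihf ihg =>
    rintro x y ⟨a, b, h1, h2, h3, h4, h5⟩
    exact ⟨a, b, ihf h1, ihg h2, h3, h4.trans h, h5.trans h⟩
  | comp f g ihf ihg =>
    rintro x y ⟨z, h1, h2⟩
    exact ⟨z, ihg h1, ihf h2⟩
  | ite f g ihf ihg =>
    rintro x y ⟨r, h1 | h1⟩
    · exact ⟨r, Or.inl ⟨h1.1, ihf h1.2⟩⟩
    · exact ⟨r, Or.inr ⟨h1.1, ihg h1.2⟩⟩
  | loop f ih =>
    rintro x y ⟨m, hm, h1, h2⟩
    exact ⟨m, hm.trans h, h1.mono fun _ _ => ih, h2⟩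

/-! ### Compilation -/

inductive Rg : Type
  | D | A | B | C
  deriving DecidableEq

instance : Fintype Rg := ⟨{.D, .A, .B, .C}, fun x => by cases x <;> simp⟩

def st (d a b c : List Bool) : St Rg
  | .D => d
  | .A => a
  | .B => b
  | .C => c

@[simp] theorem st_D (d a b c) : st d a b c .D = d := rfl
@[simp] theorem st_A (d a b c) : st d a b c .A = a := rfl
@[simp] theorem st_B (d a b c) : st d a b c .B = b := rfl
@[simp] theorem st_C (d a b c) : st d a b c .C = c := rfl
@[simp] theorem up_D (d a b c x) : update (st d a b c) .D x = st x a b c := by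
  funext r; cases r <;> rfl
@[simp] theorem up_A (d a b c x) : update (st d a b c) .A x = st d x b c := by
  funext r; cases r <;> rfl
@[simp] theorem up_B (d a b c x) : update (st d a b c) .B x = st d a x c := by
  funext r; cases r <;> rfl
@[simp] theorem up_C (d a b c x) : update (st d a b c) .C x = st d a b x := by
  funext r; cases r <;> rfl

def LoopN (β : ℕ) (r : Rg) (c : Option Bool → Bool) (P : Prog Rg) : ℕ → St Rg → St Rg → Prop
  | 0, s, s' => s' = s
  | n + 1, s, s' => c (s r).head? = true ∧ ∃ t, Run β P s t ∧ LoopN β r c P n t s'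

theorem LoopN.trans {β r c P} : ∀ {n m s t u}, LoopN β r c P n s t → LoopN β r c P m t u →
    LoopN β r c P (n + m) s u := by
  intro n
  induction n with
  | zero =>
    intro m x y z h1 h2
    rw [show y = x from h1] at h2
    simpa using h2
  | succ n ih =>
    rintro m x y z ⟨h1, t, h2, h3⟩ h4
    rw [show n + 1 + m = (n + m) + 1 by omega]
    exact ⟨h1, t, h2, ih h3 h4⟩

theorem LoopN.run {β r c P n s s'} (h : LoopN β r c P n s s') (hn : n ≤ β)
    (hc : c (s' r).head? = false) : Run β (.loop r c P) s s' := by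
  have : ∀ n s, LoopN β r c P n s s' → ∃ I : ℕ → St Rg, I n = s ∧ I 0 = s' ∧
      ∀ i < n, c (I (i + 1) r).head? = true ∧ Run β P (I (i + 1)) (I i) := by
    intro n
    induction n with
    | zero => intro s h; exact ⟨fun _ => s, rfl, (show s' = s from h).symm, fun i hi => by omega⟩
    | succ n ih =>
      rintro s ⟨h1, t, h2, h3⟩
      obtain ⟨I, i1, i2, i3⟩ := ih t h3
      refine ⟨fun i => if i = n + 1 then s else I i, by simp, by simp [i2], fun i hi => ?_⟩
      by_cases hin : i = n
      · subst hin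
        simp [i1, h1, h2]
      · have := i3 i (by omega)
        simp only [show i + 1 ≠ n + 1 by omega, show i ≠ n + 1 by omega, if_false]
        exact this
  obtain ⟨I, i1, i2, i3⟩ := this n s h
  exact ⟨n, hn, I, i1, i2, hc, i3⟩

theorem rcondT {β : ℕ} {r : Rg} {c} {P Q : Prog Rg} {s s' : St Rg} (h : c (s r).head? = true)
    (h1 : Run β P s s') : Run β (.cond r c P Q) s s' := Or.inl ⟨h, h1⟩

theorem rcondF {β : ℕ} {r : Rg} {c} {P Q : Prog Rg} {s s' : St Rg} (h : c (s r).head? = false)
    (h1 : Run β Q s s') : Run β (.cond r c P Q) s s' := Or.inr ⟨h, h1⟩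

def mvBody (P : Bool → Prog Rg) : Prog Rg :=
  .seq (.pop .C) (.cond .D isT (.seq (.pop .D) (.seq (P true) (.push .C [true, true])))
    (.seq (.pop .D) (P false)))

def mv (P : Bool → Prog Rg) : Prog Rg := .seq (.push .C [true]) (.loop .C isT (mvBody P))

theorem run_mv {β : ℕ} {P : Bool → Prog Rg} (fa fb : List Bool → List Bool)
    (hP : ∀ x d m c, Run β (P x) (st d (fa m) (fb m) c) (st d (fa (x :: m)) (fb (x :: m)) c))
    (t : Tr) (ht : t.sz ≤ β) (d : List Bool) :
    Run β (mv P) (st (t.enc ++ d) (fa []) (fb []) [])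
      (st d (fa t.enc.reverse) (fb t.enc.reverse) []) := by
  have key : ∀ (t : Tr) d m c, LoopN β .C isT (mvBody P) t.sz
      (st (t.enc ++ d) (fa m) (fb m) (true :: c))
      (st d (fa (t.enc.reverse ++ m)) (fb (t.enc.reverse ++ m)) c) := by
    intro t
    induction t with
    | nil =>
      intro d m c
      refine ⟨rfl, _, Run.seq (Run.pop _ _) (rcondF rfl (Run.seq (Run.pop _ _) ?_)), rfl⟩
      simpa [Tr.enc] using hP false d m c
    | cons a b iha ihb =>
      intro d m c
      rw [sz_cons]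
      refine ⟨rfl, st (a.enc ++ (b.enc ++ d)) (fa (true :: m)) (fb (true :: m)) (true :: true :: c),
        Run.seq (Run.pop _ _) (rcondT rfl (Run.seq (Run.pop _ _) (Run.seq
          (t := st (a.enc ++ (b.enc ++ d)) (fa (true :: m)) (fb (true :: m)) c) ?_ ?_))), ?_⟩
      · simpa [Tr.enc] using hP true (a.enc ++ (b.enc ++ d)) m c
      · exact (Run.push _ _ _).of_eq (by simp)
      · have := (iha (b.enc ++ d) (true :: m) (true :: c)).trans (ihb d _ c)
        simpa [Tr.enc] using this
  refine Run.seq (Run.push _ _ _) ?_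
  have := (key t d [] []).run ht rfl
  simpa using this

def isS (o : Option Bool) : Bool := o.isSome

def flush (r : Rg) : Prog Rg :=
  .loop r isS (.cond r isT (.seq (.pop r) (.push .D [true])) (.seq (.pop r) (.push .D [false])))

theorem run_flushA {β : ℕ} (l : List Bool) (hl : l.length ≤ β) (d b : List Bool) :
    Run β (flush .A) (st d l b []) (st (l.reverse ++ d) [] b []) := by
  have key : ∀ (l d : List Bool), LoopN β .A isS (.cond .A isT (.seq (.pop .A) (.push .D [true]))
      (.seq (.pop .A) (.push .D [false]))) l.length (st d l b []) (st (l.reverse ++ d) [] b []) := by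
    intro l
    induction l with
    | nil => intro d; rfl
    | cons x l ih =>
      intro d
      refine ⟨rfl, st (x :: d) l b [], ?_, by simpa using ih (x :: d)⟩
      cases x
      · exact rcondF rfl (Run.seq (Run.pop _ _) ((Run.push _ _ _).of_eq (by simp)))
      · exact rcondT rfl (Run.seq (Run.pop _ _) ((Run.push _ _ _).of_eq (by simp)))
  exact (key l d).run hl rfl

theorem run_flushB {β : ℕ} (l : List Bool) (hl : l.length ≤ β) (d a : List Bool) :
    Run β (flush .B) (st d a l []) (st (l.reverse ++ d) a [] []) := by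
  have key : ∀ (l d : List Bool), LoopN β .B isS (.cond .B isT (.seq (.pop .B) (.push .D [true]))
      (.seq (.pop .B) (.push .D [false]))) l.length (st d a l []) (st (l.reverse ++ d) a [] []) := by
    intro l
    induction l with
    | nil => intro d; rfl
    | cons x l ih =>
      intro d
      refine ⟨rfl, st (x :: d) a l [], ?_, by simpa using ih (x :: d)⟩
      cases x
      · exact rcondF rfl (Run.seq (Run.pop _ _) ((Run.push _ _ _).of_eq (by simp)))
      · exact rcondT rfl (Run.seq (Run.pop _ _) ((Run.push _ _ _).of_eq (by simp)))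
  exact (key l d).run hl rfl

def mvA : Prog Rg := mv fun x => .push .A [x]
def mvB : Prog Rg := mv fun x => .push .B [x]
def mvAB : Prog Rg := mv fun x => .seq (.push .A [x]) (.push .B [x])
def drop : Prog Rg := mv fun _ => .push .D []
def dup : Prog Rg := .seq mvAB (.seq (flush .A) (flush .B))
def swap : Prog Rg := .seq mvA (.seq mvB (.seq (flush .A) (flush .B)))

theorem run_mvA {β : ℕ} (t : Tr) (ht : t.sz ≤ β) (d b : List Bool) :
    Run β mvA (st (t.enc ++ d) [] b []) (st d t.enc.reverse b []) :=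
  run_mv id (fun _ => b) (fun _ _ _ _ => (Run.push _ _ _).of_eq (by simp)) t ht d

theorem run_mvB {β : ℕ} (t : Tr) (ht : t.sz ≤ β) (d a : List Bool) :
    Run β mvB (st (t.enc ++ d) a [] []) (st d a t.enc.reverse []) :=
  run_mv (fun _ => a) id (fun _ _ _ _ => (Run.push _ _ _).of_eq (by simp)) t ht d

theorem run_drop {β : ℕ} (t : Tr) (ht : t.sz ≤ β) (d a b : List Bool) :
    Run β drop (st (t.enc ++ d) a b []) (st d a b []) :=
  run_mv (fun _ => a) (fun _ => b) (fun _ _ _ _ => (Run.push _ _ _).of_eq (by simp)) t ht d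

theorem run_dup {β : ℕ} (t : Tr) (ht : t.sz ≤ β) (d : List Bool) :
    Run β dup (st (t.enc ++ d) [] [] []) (st (t.enc ++ (t.enc ++ d)) [] [] []) := by
  have h1 : Run β mvAB (st (t.enc ++ d) [] [] []) (st d t.enc.reverse t.enc.reverse []) :=
    run_mv id id (fun _ _ _ _ => Run.seq (Run.push _ _ _) ((Run.push _ _ _).of_eq (by simp))) t ht d
  have hl : t.enc.reverse.length ≤ β := by simpa [Tr.sz] using ht
  refine Run.seq h1 (Run.seq (run_flushA _ hl _ _) ?_)
  simpa using run_flushB _ hl (t.enc ++ d) []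

theorem run_swap {β : ℕ} (t u : Tr) (ht : t.sz ≤ β) (hu : u.sz ≤ β) (d : List Bool) :
    Run β swap (st (t.enc ++ (u.enc ++ d)) [] [] []) (st (u.enc ++ (t.enc ++ d)) [] [] []) := by
  have hl : t.enc.reverse.length ≤ β := by simpa [Tr.sz] using ht
  have hl' : u.enc.reverse.length ≤ β := by simpa [Tr.sz] using hu
  refine Run.seq (run_mvA t ht _ _) (Run.seq (run_mvB u hu _ _) (Run.seq (run_flushA _ hl _ _) ?_))
  simpa using run_flushB _ hl' (t.enc ++ d) []

def compile : Fn → Prog Rg
  | .nil => .seq drop (.push .D [false])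
  | .id => .push .D []
  | .fst => .seq (.pop .D) (.seq mvA (.seq drop (flush .A)))
  | .snd => .seq (.pop .D) drop
  | .isCons => .cond .D isT (.seq drop (.push .D [true, false, false])) (.seq drop (.push .D [false]))
  | .pair f g => .seq dup (.seq (compile g) (.seq swap (.seq (compile f) (.push .D [true]))))
  | .comp f g => .seq (compile g) (compile f)
  | .ite f g => .seq (.pop .D) (.cond .D isT
      (.seq (.pop .D) (.seq (.pop .D) (.seq (.pop .D) (compile f)))) (.seq (.pop .D) (compile g)))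
  | .loop f => .seq (.pop .D) (.seq (.loop .D isT
      (.seq (.push .D [true]) (.seq (compile f) (.pop .D)))) (.push .D [true]))

theorem Ev.run {β : ℕ} : ∀ {F : Fn} {x y : Tr}, Ev β F x y → ∀ d,
    Run β (compile F) (st (x.enc ++ d) [] [] []) (st (y.enc ++ d) [] [] []) := by
  intro F
  induction F with
  | nil =>
    rintro x y ⟨rfl, h⟩ d
    exact Run.seq (run_drop x h _ _ _) ((Run.push _ _ _).of_eq (by simp [Tr.enc]))
  | id =>
    intro x y h d
    rw [show y = x from h]
    exact (Run.push _ _ _).of_eq (by simp)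
  | fst =>
    rintro x y ⟨⟨b, rfl⟩, h⟩ d
    rw [sz_cons] at h
    refine Run.seq (Run.pop _ _) (Run.seq (t := st (b.enc ++ d) y.enc.reverse [] []) ?_
      (Run.seq (run_drop b (by omega) _ _ _) ?_))
    · simpa [Tr.enc] using run_mvA y (by omega) (b.enc ++ d) []
    · have hy : y.sz ≤ β := by omega
      simpa using run_flushA (β := β) y.enc.reverse (by simpa [Tr.sz] using hy) d []
  | snd =>
    rintro x y ⟨⟨a, rfl⟩, h⟩ d
    rw [sz_cons] at h
    refine Run.seq (Run.pop _ _) ?_
    simpa [Tr.enc] using run_drop a (by omega) (y.enc ++ d) [] []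
  | isCons =>
    rintro x y ⟨⟨rfl, rfl⟩ | ⟨⟨a, b, rfl⟩, rfl⟩, h⟩ d
    · exact rcondF rfl (Run.seq (run_drop _ h _ _ _) ((Run.push _ _ _).of_eq (by simp [tb, Tr.enc])))
    · exact rcondT rfl (Run.seq (run_drop _ h _ _ _) ((Run.push _ _ _).of_eq (by simp [tb, Tr.enc])))
  | pair f g ihf ihg =>
    rintro x y ⟨a, b, h1, h2, rfl, h4, h5⟩ d
    exact Run.seq (run_dup x h4 d) (Run.seq (ihg h2 _) (Run.seq (run_swap b x h5 h4 d)
      (Run.seq (ihf h1 _) ((Run.push _ _ _).of_eq (by simp [Tr.enc])))))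
  | comp f g ihf ihg =>
    rintro x y ⟨z, h1, h2⟩ d
    exact Run.seq (ihg h1 d) (ihf h2 d)
  | ite f g ihf ihg =>
    rintro x y ⟨r, ⟨rfl, h1⟩ | ⟨rfl, h1⟩⟩ d
    · refine Run.seq (Run.pop _ _) (rcondT rfl (Run.seq (Run.pop _ _) (Run.seq (Run.pop _ _)
        (Run.seq (Run.pop _ _) ?_))))
      simpa [Tr.enc, tb] using ihf h1 d
    · refine Run.seq (Run.pop _ _) (rcondF rfl (Run.seq (Run.pop _ _) ?_))
      simpa [Tr.enc, tb] using ihg h1 d
  | loop f ih =>
    rintro x y ⟨m, hm, h1, r, hr⟩ d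
    have key : ∀ m x, Iter (Ev β f) m x y → LoopN β .D isT
        (.seq (.push .D [true]) (.seq (compile f) (.pop .D))) m
        (st (x.enc ++ d).tail [] [] []) (st (y.enc ++ d).tail [] [] []) := by
      intro m
      induction m with
      | zero => intro x h; rw [show y = x from h]; rfl
      | succ m ihm =>
        rintro x ⟨⟨r, rfl⟩, z, h2, h3⟩
        refine ⟨rfl, _, Run.seq (Run.push _ _ _) (Run.seq (t := st (z.enc ++ d) [] [] []) ?_
          ((Run.pop _ _).of_eq (by simp only [st_D, up_D]))), ihm z h3⟩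
        simpa [Tr.enc] using ih h2 d
    refine Run.seq (Run.pop _ _) (Run.seq (t := st (y.enc ++ d).tail [] [] []) ?_ ?_)
    · have := (key m x h1).run hm (by rw [hr]; rfl)
      simpa using this
    · exact (Run.push _ _ _).of_eq (by rw [hr]; simp [Tr.enc])

end Vale.Agent.Common.TreeTM
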